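import Vale.Agent.P139.C.BC
import Vale.Agent.P139.C.Lin

/-! P139 task C/Away (PROOF.md section C). Compact regime away from the symmetry eigenvalues. `Det X0 β ℓ (λ + a)` is bounded below (`c_detq`, `c_detz`, `a ≤ ε`), `ext_hom` and `c_bc` (`κ = 0`)
make the right side of `c_cramer` small (`c_row_bdd`), so the data vanish; `c_uniq`.
-/

noncomputable section

open MeasureTheory Filter Topology Set Complex
open scoped ComplexConjugate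

namespace Vale.Agent.P139

variable {c : Co} {L Y : ℝ} {lam : ℂ} {u u1 v η η1 ψ ψ1 sη sψ f g ef eg : ℝ → ℂ} {m l : ℕ}
  {Q : Prof m}

theorem caway_lam (g : ℝ → ℂ) (X : ℝ) : Lam (fun Y => conj (g Y)) X = conj (Lam g X) := by
  have h : deriv (fun Y => conj (g Y)) X = conj (deriv g X) := deriv.star (f := g) (x := X)
  simp only [Lam, h, map_mul, conj_ofReal]

theorem caway_dat (f : ℝ → ℂ) (X : ℝ) :
    ‖f X‖ ≤ ‖dat f X‖ ∧ ‖Lam f X‖ ≤ 7 / 2 * ‖dat f X‖ := by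
  have h1 : ‖f X‖ ≤ ‖dat f X‖ := norm_fst_le (dat f X)
  have h2 : ‖Lam f X + 5 / 2 * f X‖ ≤ ‖dat f X‖ := norm_snd_le (dat f X)
  have h3 := norm_sub_le (Lam f X + 5 / 2 * f X) (5 / 2 * f X)
  rw [add_sub_cancel_right, norm_mul, show ‖(5 / 2 : ℂ)‖ = 5 / 2 by simp] at h3
  exact ⟨h1, by linarith⟩

theorem caway_dot (r d : ℂ × ℂ) (s : ℂ) : ‖dotR r (s • d)‖ = ‖s‖ * ‖dotR r d‖ := by
  rw [← norm_mul]
  congr 1
  simp only [dotR, Prod.smul_fst, Prod.smul_snd, smul_eq_mul]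
  ring

theorem caway_det (C Λ : ℝ) (hC : 0 < C) (l0 : ℕ) {δ : ℝ} (hδ : 0 < δ) : ∃ d ε0 : ℝ, 0 < d ∧ 0 < ε0 ∧
    ∀ (m : ℕ) (Q : Prof m) (X0 ε : ℝ), ε ∈ Ioc 0 ε0 → Q.Good X0 ε C → ∀ (l : ℕ) (lam : ℂ),
      0 ≤ lam.re → l ≤ l0 → ‖lam‖ ≤ Λ → (∀ z, Sym l z → δ ≤ ‖lam - z‖) →
        d ≤ ‖det2 ((l + 5) / 2) (row (Q.nu lam) ((l + 5) / 2) X0)
          (row (Q.nu (conj lam)) ((l + 5) / 2) X0)‖ := by
  obtain ⟨δ0, c0, hδ0, -, hc0, hq1, hq2⟩ := c_detq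
  obtain ⟨η', hη', hq3⟩ := hq1 (c0 * δ / 4) (by positivity)
  obtain ⟨d, hd, hq4⟩ := hq2 (Λ + 1) l0
  obtain ⟨ε1, hε1, hz⟩ := c_detz C hC hη'
  refine ⟨min d (c0 * δ / 4), min ε1 (min 1 (δ / 2)), by positivity, by positivity, ?_⟩
  intro m Q X0 ε hε hG l lam hre hl hΛ hS
  have e1 : ε ≤ ε1 := hε.2.trans (min_le_left _ _)
  have e2 : ε ≤ 1 := hε.2.trans ((min_le_right _ _).trans (min_le_left _ _))
  have e3 : ε ≤ δ / 2 := hε.2.trans ((min_le_right _ _).trans (min_le_right _ _))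
  have ha0 : 0 ≤ aa m := by unfold aa; positivity
  have ha := hG.a_le
  have hna : ‖((aa m : ℝ) : ℂ)‖ = aa m := by rw [Complex.norm_real, Real.norm_of_nonneg ha0]
  have h1 : Q.nu lam = (lam + aa m) - I * Q.β - 5 / 2 := by
    unfold Prof.nu nu0; ring
  have h2 : Q.nu (conj lam) = conj (lam + aa m) - I * Q.β - 5 / 2 := by
    unfold Prof.nu nu0; rw [map_add, conj_ofReal]; ring
  rw [h1, h2, ← c_Det]
  have hre' : 0 ≤ (lam + aa m).re := by rw [add_re, ofReal_re]; linarith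
  by_cases hc : ∀ z, Sym l z → δ0 ≤ ‖lam + aa m - z‖
  · refine (min_le_left _ _).trans (hq4 X0 Q.β hG.box l hl _ hre' ?_ hc)
    have := norm_add_le lam ((aa m : ℝ) : ℂ)
    linarith
  · push Not at hc
    obtain ⟨z, hz1, hz2⟩ := hc
    have h3 := hq3 X0 Q.β hG.box l z _ hz1 hre' hz2.le (hz m Q X0 ε ⟨hε.1, e1⟩ hG l z hz1)
    have h4 := norm_sub_le (lam + aa m - z) ((aa m : ℝ) : ℂ)
    rw [show lam + aa m - z - aa m = lam - z by ring] at h4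
    have h5 := hS z hz1
    have h6 : δ / 2 ≤ ‖lam + aa m - z‖ := by linarith
    have h7 := mul_le_mul_of_nonneg_left h6 hc0.le
    refine (min_le_right _ _).trans ?_
    linarith

theorem caway_sq {x : ℝ} (h0 : 0 ≤ x) (h1 : x ≤ 1) : x ≤ √x :=
  Real.le_sqrt_of_sq_le (by nlinarith)

theorem caway_num {l l0 y Λ f g lf lg x x' D A B t K1 K2 R ε s d b w : ℝ} (hl0 : 0 ≤ l) (hl : l ≤ l0)
    (i1 : |y| ≤ |Λ|) (hf : 0 ≤ f) (hg : 0 ≤ g) (hlf : 0 ≤ lf) (hlg : 0 ≤ lg) (hx : 0 ≤ x)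
    (hx' : 0 ≤ x') (d1 : f + g ≤ D) (d2 : lf + lg ≤ 7 / 2 * D)
    (hA : A = (l0 + |Λ| + 1) ^ 4 * (l0 + √|Λ| + 1 + 7 / 2))
    (hB : B = 20 * (1 + (l0 + 5) / 2) ^ 3 * (|R| * (2 * (|K1| * A)) + R ^ 2 * K2)) (ht0 : 0 < t)
    (ht : B * t < d / 2) (hK2 : 0 ≤ K2) (hR0 : 0 ≤ R) (e0 : 0 < ε) (e4 : ε ≤ 1 / 2) (e5 : ε ≤ t ^ 4)
    (s1 : 1 / 2 ≤ s) (s2 : s ≤ 2) (hd : 0 < d) (hb : 0 ≤ b) (k1 : d ≤ w)
    (k2 : x + x' ≤ K1 * ε * (l + |y| + 1) ^ 4 * ((l + √|y| + 1) * (f + g) + (lf + lg)))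
    (k3 : b ≤ K2 * √√ε * D)
    (k4 : w * (s * D) ≤ 20 * (1 + (l + 5) / 2) ^ 3 * (R * (s * (x + x')) + R ^ 2 * b)) : D ≤ 0 := by
  have hD0 : 0 ≤ D := by linarith
  have hl1 : 0 ≤ l0 := hl0.trans hl
  have hA0 : 0 ≤ A := by rw [hA]; positivity
  have u1 : √√ε ≤ t := by
    rw [Real.sqrt_le_left ht0.le, Real.sqrt_le_left (by positivity)]
    linarith [show (t ^ 2) ^ 2 = t ^ 4 by ring]
  have u2 : ε ≤ √√ε := (caway_sq e0.le (by linarith)).trans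
    (caway_sq (Real.sqrt_nonneg ε) (Real.sqrt_le_one.2 (by linarith)))
  have i2 : √|y| ≤ √|Λ| := Real.sqrt_le_sqrt i1
  have i3 : (l + |y| + 1) ^ 4 * ((l + √|y| + 1) * (f + g) + (lf + lg)) ≤ A * D := by
    rw [hA, mul_assoc]
    refine mul_le_mul (by gcongr) ?_ (by positivity) (by positivity)
    have a1 : (l + √|y| + 1) * (f + g) ≤ (l0 + √|Λ| + 1) * D :=
      mul_le_mul (by linarith) d1 (by positivity) (by positivity)
    linarith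
  have k5 := k2.trans (show _ ≤ |K1| * A * (t * D) by
    rw [mul_assoc]
    refine (mul_le_mul (mul_le_mul (le_abs_self K1) (u2.trans u1) e0.le (abs_nonneg _)) i3
      (by positivity) (by positivity)).trans_eq (by ring))
  have k6 := k3.trans (show _ ≤ K2 * (t * D) by
    rw [mul_assoc]
    gcongr)
  have s0 : 0 ≤ s := by linarith
  have k7 := k4.trans (show _ ≤ B * (t * D) from
    (mul_le_mul (b := 20 * (1 + (l0 + 5) / 2) ^ 3)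
      (d := |R| * (2 * (|K1| * A * (t * D))) + R ^ 2 * (K2 * (t * D))) (by gcongr)
      (add_le_add (mul_le_mul (le_abs_self R) (mul_le_mul s2 k5 (by positivity) (by norm_num))
        (by positivity) (abs_nonneg R)) (mul_le_mul_of_nonneg_left k6 (sq_nonneg R)))
      (by positivity) (by positivity)).trans_eq (by rw [hB]; ring))
  have k8 : d * (1 / 2 * D) ≤ B * (t * D) :=
    (mul_le_mul k1 (mul_le_mul_of_nonneg_right s1 hD0) (by positivity) (hd.le.trans k1)).trans k7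
  by_contra h
  have k9 := mul_lt_mul_of_pos_right ht (not_le.1 h)
  rw [mul_assoc] at k9
  linarith

theorem caway_nu {X0 ε C Λ : ℝ} (hG : Q.Good X0 ε C) (hε : ε ≤ 1) (hre : 0 ≤ lam.re)
    (hΛ : ‖lam‖ ≤ Λ) : -3 ≤ (Q.nu lam).re ∧ ‖Q.nu lam‖ ≤ Λ + 5 := by
  have ha0 : 0 ≤ aa m := by unfold aa; positivity
  have ha := hG.a_le
  have hb1 : 0 ≤ Q.β := le_trans (by unfold βlo; norm_num) hG.box.2.1
  have hb2 : Q.β ≤ 1 := hG.box.2.2.trans (by unfold βhi; norm_num)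
  constructor
  · have : (Q.nu lam).re = lam.re + aa m - 5 / 2 := by
      unfold Prof.nu nu0
      simp
    linarith
  · unfold Prof.nu nu0
    have h1 := norm_sub_le (lam + ((aa m : ℝ) - I * Q.β)) (5 / 2)
    have h2 := norm_add_le lam ((aa m : ℝ) - I * Q.β)
    have h3 := norm_sub_le ((aa m : ℝ) : ℂ) (I * Q.β)
    rw [norm_mul, norm_I, Complex.norm_real, Complex.norm_real, Real.norm_of_nonneg ha0,
      Real.norm_of_nonneg hb1] at h3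
    rw [show ‖(5 / 2 : ℂ)‖ = 5 / 2 by simp] at h1
    linarith

theorem c_away (C Λ : ℝ) (hC : 0 < C) (l0 : ℕ) {δ : ℝ} (hδ : 0 < δ) : ∃ ε0 : ℝ, 0 < ε0 ∧ ∀ (m : ℕ)
    (Q : Prof m) (X0 ε : ℝ), ε ∈ Ioc 0 ε0 → Q.Good X0 ε C → ∀ (l : ℕ) (lam : ℂ) (f g : ℝ → ℂ),
      Q.RSol l lam f g 0 0 → 0 ≤ lam.re → l ≤ l0 → ‖lam‖ ≤ Λ → (∀ z, Sym l z → δ ≤ ‖lam - z‖) →
        ∀ X, 0 < X → f X = 0 ∧ g X = 0 := by
  obtain ⟨d, ε1, hd, hε1, hdet⟩ := caway_det C Λ hC l0 hδ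
  obtain ⟨K1, ε2, hε2, hext⟩ := ext_hom C Λ
  obtain ⟨K2, ε3, hε3, hK2, hbc⟩ := c_bc C Λ hC l0
  obtain ⟨R, hR⟩ := c_row_bdd (Λ + 5) l0
  obtain ⟨A, hA⟩ : ∃ A : ℝ, A = (l0 + |Λ| + 1) ^ 4 * (l0 + √|Λ| + 1 + 7 / 2) := ⟨_, rfl⟩
  have hA0 : 0 ≤ A := by rw [hA]; positivity
  obtain ⟨B, hB⟩ : ∃ B : ℝ, B = 20 * (1 + ((l0 : ℝ) + 5) / 2) ^ 3 *
    (|R| * (2 * (|K1| * A)) + R ^ 2 * K2) := ⟨_, rfl⟩
  have hB0 : 0 ≤ B := by rw [hB]; positivity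
  obtain ⟨t, ht0, ht⟩ : ∃ t : ℝ, 0 < t ∧ B * t < d / 2 := by
    refine ⟨d / (2 * (B + 1)), by positivity, ?_⟩
    rw [← mul_div_assoc, div_lt_div_iff₀ (by positivity) (by positivity)]
    nlinarith
  refine ⟨min (min ε1 ε2) (min ε3 (min (1 / 2) (t ^ 4))), by positivity, ?_⟩
  intro m Q X0 ε hε hG l lam f g hsol hre hl hΛ hS
  obtain ⟨e0, e'⟩ := hε
  simp only [le_min_iff] at e'
  obtain ⟨⟨e1, e2⟩, e3, e4, e5⟩ := e'
  have hX1 : 2 ≤ X0 := le_trans (by unfold Xlo; norm_num) hG.box.1.1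
  have hX2 : X0 ≤ 4 := hG.box.1.2.trans (by unfold Xhi; norm_num)
  have hl' : (l : ℝ) ≤ l0 := by exact_mod_cast hl
  have hl0 : (0 : ℝ) ≤ l := Nat.cast_nonneg l
  have n1 := caway_nu hG (by linarith) hre hΛ
  have n2 := caway_nu (lam := conj lam) hG (by linarith) (by simpa using hre) (by simpa using hΛ)
  have r1 := hR l hl _ n1.1 n1.2 X0 ⟨hX1, hX2⟩
  have r2 := hR l hl _ n2.1 n2.2 X0 ⟨hX1, hX2⟩
  have hR0 : 0 ≤ R := (norm_nonneg _).trans r1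
  have k1 := hdet m Q X0 ε ⟨e0, e1⟩ hG l lam hre hl hΛ hS
  have k2 := hext m Q X0 ε e0 e2 hG l lam f g ⟨hre, (re_le_norm lam).trans hΛ⟩ hsol X0
    ⟨le_rfl, by linarith⟩
  have k3 := hbc m Q X0 ε ⟨e0, e3⟩ hG l lam 0 0 f g 0 hl hΛ (Or.inl rfl)
    (c_congr hsol fun X _ => by simp)
  have k4 := c_cramer (ℓ := (l + 5) / 2) (by positivity) (d := (Q.q X0)⁻¹ • dat f X0)
    (d' := (Q.q X0)⁻¹ • dat (fun Y => conj (g Y)) X0) r1 r2
  have hq := abs_le.1 (hG.near X0 ⟨by linarith, le_rfl⟩).1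
  have s1 : 1 / 2 ≤ ‖(Q.q X0)⁻¹‖ := by
    rw [norm_inv, le_inv_comm₀ (by norm_num) (by linarith [hq.1])]
    linarith [hq.2]
  have s2 : ‖(Q.q X0)⁻¹‖ ≤ 2 := by
    rw [norm_inv, inv_le_comm₀ (by linarith [hq.1]) (by norm_num)]
    linarith [hq.1]
  rw [caway_dot, caway_dot, norm_smul, norm_smul, ← mul_add, ← mul_add] at k4
  have d1 := caway_dat f X0
  have d2 := caway_dat (fun Y => conj (g Y)) X0
  rw [caway_lam, Complex.norm_conj, Complex.norm_conj] at d2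
  rw [norm_zero, add_zero] at k3
  obtain ⟨D, hD⟩ : ∃ D, D = ‖dat f X0‖ + ‖dat (fun Y => conj (g Y)) X0‖ := ⟨_, rfl⟩
  have hD0 : 0 ≤ D := by rw [hD]; positivity
  rw [← hD] at k3 k4
  have hD1 : D ≤ 0 := caway_num hl0 hl' ((abs_im_le_norm lam).trans (hΛ.trans (le_abs_self Λ)))
    (norm_nonneg _) (norm_nonneg _) (norm_nonneg _) (norm_nonneg _) (norm_nonneg _) (norm_nonneg _)
    (by linarith [d1.1, d2.1]) (by linarith [d1.2, d2.2]) hA hB ht0 ht hK2 hR0 e0 e4 e5 s1 s2 hd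
    (add_nonneg (norm_nonneg _) (norm_nonneg _)) k1 k2 k3 k4
  have z1 : ‖dat f X0‖ ≤ 0 := by linarith [norm_nonneg (dat (fun Y => conj (g Y)) X0)]
  have z2 : ‖dat (fun Y => conj (g Y)) X0‖ ≤ 0 := by linarith [norm_nonneg (dat f X0)]
  have hX0 : (X0 : ℂ) ≠ 0 := ofReal_ne_zero.2 (by linarith)
  refine c_uniq hsol (X := X0) (by linarith) (norm_le_zero_iff.1 (by linarith [d1.1]))
    (norm_le_zero_iff.1 (by linarith [d2.1])) ?_ ?_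
  · exact (mul_eq_zero.1 (norm_le_zero_iff.1 (by linarith [d1.2] : ‖Lam f X0‖ ≤ 0))).resolve_left hX0
  · exact (mul_eq_zero.1 (norm_le_zero_iff.1 (by linarith [d2.2] : ‖Lam g X0‖ ≤ 0))).resolve_left hX0

end Vale.Agent.P139
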