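import Vale.Agent.P139.C.Def
import Vale.Agent.P139.X.Defs
import Vale.Agent.P139.D

/-! P139 task C/LA (PROOF.md section C). Linear algebra and compactness for the determinant. For `d = (y, p)` put `k = p - ℓ y`, so `dotR r d = (r.1 + ℓ r.2) y + r.2 k`.
`c_cramer`: Cramer rule for the system `dotR r d`, `conj (dotR r' d')` with `conj d'.1 ≈ -y`, `conj k' ≈ k`.
`c_orth`: for orthogonal `x`, `x'` in `ℂ²`, `‖R‖² = |R x|²/|x|² + |R x'|²/|x'|²`. `c_detq`, `c_det_away`: minimum of a continuous function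
(`row_continuous`) on a compact set, `det_main`.
-/

noncomputable section

open MeasureTheory Filter Topology Set Complex
open scoped ComplexConjugate

namespace Vale.Agent.P139

variable {c : Co} {L Y : ℝ} {lam : ℂ} {u u1 v η η1 ψ ψ1 sη sψ f g ef eg : ℝ → ℂ} {m l : ℕ}
  {Q : Prof m}

/-- The defect in the free boundary conditions. -/
def bcd (ℓ : ℝ) (d d' : ℂ × ℂ) : ℝ :=
  ‖d.1 + conj d'.1‖ + ‖d.2 - ℓ * d.1 - conj (d'.2 - ℓ * d'.1)‖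

def det2 (ℓ : ℝ) (r r' : ℂ × ℂ) : ℂ :=
  (r.1 + ℓ * r.2) * conj r'.2 + r.2 * conj (r'.1 + ℓ * r'.2)

theorem c_Det (X β ℓ : ℝ) (lam : ℂ) : Det X β ℓ lam =
    det2 ℓ (row (lam - I * β - 5 / 2) ℓ X) (row (conj lam - I * β - 5 / 2) ℓ X) := rfl

theorem cla_comb {ℓ R : ℝ} (hl : 0 ≤ ℓ) {r : ℂ × ℂ} (h : ‖r‖ ≤ R) :
    ‖r.1 + ℓ * r.2‖ ≤ (1 + ℓ) * R := by
  have h1 := (norm_fst_le r).trans h
  have h2 := (norm_snd_le r).trans h
  have h3 := norm_add_le r.1 (ℓ * r.2)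
  rw [norm_mul, norm_real, Real.norm_of_nonneg hl] at h3
  nlinarith [mul_le_mul_of_nonneg_left h2 hl]

theorem cla_dat {ℓ : ℝ} (hl : 0 ≤ ℓ) (d : ℂ × ℂ) :
    ‖d‖ ≤ (1 + ℓ) * ‖d.1‖ + ‖d.2 - ℓ * d.1‖ := by
  have h3 := norm_add_le (d.2 - ℓ * d.1) (ℓ * d.1)
  rw [norm_mul, norm_real, Real.norm_of_nonneg hl, sub_add_cancel] at h3
  have h4 := mul_nonneg hl (norm_nonneg d.1)
  rw [Prod.norm_def]
  apply max_le <;> nlinarith [norm_nonneg d.1, norm_nonneg (d.2 - ℓ * d.1)]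

theorem cla_two {p q x y : ℂ} {P S : ℝ} (hp : ‖p‖ ≤ P) (hq : ‖q‖ ≤ P) (hS : ‖x‖ + ‖y‖ ≤ S) :
    ‖p * x + q * y‖ ≤ P * S := by
  have h1 := norm_add_le (p * x) (q * y)
  rw [norm_mul, norm_mul] at h1
  have h0 : 0 ≤ P := (norm_nonneg p).trans hp
  nlinarith [mul_le_mul_of_nonneg_right hp (norm_nonneg x),
    mul_le_mul_of_nonneg_right hq (norm_nonneg y), mul_le_mul_of_nonneg_left hS h0]

theorem cla_cramer {u R : ℝ} (hu : 1 ≤ u) {a b a' b' y k y' k' : ℂ} (ha : ‖a‖ ≤ u * R)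
    (ha' : ‖a'‖ ≤ u * R) (hb : ‖b‖ ≤ R) (hb' : ‖b'‖ ≤ R) :
    ‖a * b' + b * a'‖ * (u * ‖y‖ + ‖k‖ + (u * ‖y'‖ + ‖k'‖)) ≤
      20 * u ^ 3 * (R * (‖a * y + b * k‖ + ‖a' * y' + b' * k'‖) +
        R ^ 2 * (‖y + y'‖ + ‖k - k'‖)) := by
  have hR : 0 ≤ R := (norm_nonneg b).trans hb
  have hRu : R ≤ u * R := by nlinarith
  obtain ⟨S, hS⟩ : ∃ S, S = ‖a * y + b * k‖ + ‖a' * y' + b' * k'‖ := ⟨_, rfl⟩
  obtain ⟨B, hB⟩ : ∃ B, B = ‖y + y'‖ + ‖k - k'‖ := ⟨_, rfl⟩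
  have hS0 : 0 ≤ S := by rw [hS]; positivity
  have hB0 : 0 ≤ B := by rw [hB]; positivity
  have h1 : ‖(-a') * (y + y') + b' * (k - k')‖ ≤ u * R * B :=
    cla_two (by rwa [norm_neg]) (hb'.trans hRu) hB.ge
  have h2 : ‖a * y + b * k‖ + ‖(-a') * y + b' * k‖ ≤ S + u * R * B := by
    have e : (-a') * y + b' * k = (a' * y' + b' * k') + ((-a') * (y + y') + b' * (k - k')) := by
      ring
    have := norm_add_le (a' * y' + b' * k') ((-a') * (y + y') + b' * (k - k'))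
    rw [e]
    linarith
  have h3 : ‖a * b' + b * a'‖ * ‖y‖ ≤ R * (S + u * R * B) := by
    have e : (a * b' + b * a') * y = b' * (a * y + b * k) + (-b) * ((-a') * y + b' * k) := by ring
    rw [← norm_mul, e]
    exact cla_two hb' (by rwa [norm_neg]) h2
  have h4 : ‖a * b' + b * a'‖ * ‖k‖ ≤ u * R * (S + u * R * B) := by
    have e : (a * b' + b * a') * k = a' * (a * y + b * k) + a * ((-a') * y + b' * k) := by ring
    rw [← norm_mul, e]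
    exact cla_two ha' ha h2
  have h5 : ‖a * b' + b * a'‖ ≤ u * R * (2 * R) := by
    rw [mul_comm b]
    exact cla_two ha ha' (by linarith)
  have h6 : ‖y'‖ ≤ ‖y‖ + ‖y + y'‖ := by
    have := norm_sub_le (y + y') y
    rw [add_sub_cancel_left] at this
    linarith
  have h7 : ‖k'‖ ≤ ‖k‖ + ‖k - k'‖ := by
    have := norm_sub_le k (k - k')
    rwa [sub_sub_cancel] at this
  have h8 : u * ‖y‖ + ‖k‖ + (u * ‖y'‖ + ‖k'‖) ≤ 2 * u * ‖y‖ + 2 * ‖k‖ + u * B := by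
    rw [hB]
    nlinarith [norm_nonneg (k - k'), mul_le_mul_of_nonneg_left h6 (zero_le_one.trans hu)]
  rw [← hS, ← hB]
  have hD := norm_nonneg (a * b' + b * a')
  generalize ‖a * b' + b * a'‖ = D at h3 h4 h5 hD ⊢
  have hu0 : 0 ≤ u := zero_le_one.trans hu
  have h9 : D * (2 * u * ‖y‖ + 2 * ‖k‖ + u * B) ≤ 4 * u * (R * S) + 6 * u ^ 2 * (R ^ 2 * B) := by
    nlinarith [mul_le_mul_of_nonneg_left h3 hu0, mul_le_mul_of_nonneg_left h5 (mul_nonneg hu0 hB0)]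
  have h10 : u ≤ u ^ 3 := by nlinarith [mul_nonneg hu0 hu0]
  have h11 : u ^ 2 ≤ u ^ 3 := by nlinarith [mul_nonneg hu0 hu0]
  have h12 : 0 ≤ R * S := mul_nonneg hR hS0
  have h13 : 0 ≤ R ^ 2 * B := by positivity
  have h14 : 0 ≤ u ^ 3 := by positivity
  nlinarith [mul_le_mul_of_nonneg_left h8 hD, mul_le_mul_of_nonneg_right h10 h12,
    mul_le_mul_of_nonneg_right h11 h13, mul_nonneg h14 h12, mul_nonneg h14 h13]

theorem c_cramer {ℓ R : ℝ} (hl : 0 ≤ ℓ) {r r' d d' : ℂ × ℂ} (h : ‖r‖ ≤ R) (h' : ‖r'‖ ≤ R) :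
    ‖det2 ℓ r r'‖ * (‖d‖ + ‖d'‖) ≤ 20 * (1 + ℓ) ^ 3 * (R * (‖dotR r d‖ + ‖dotR r' d'‖) +
      R ^ 2 * bcd ℓ d d') := by
  have h1 := cla_cramer (u := 1 + ℓ) (R := R) (by linarith) (a := r.1 + ℓ * r.2)
    (a' := conj (r'.1 + ℓ * r'.2)) (b := r.2) (b' := conj r'.2) (y := d.1) (k := d.2 - ℓ * d.1)
    (y' := conj d'.1) (k' := conj (d'.2 - ℓ * d'.1)) (cla_comb hl h)
    (by rw [norm_conj]; exact cla_comb hl h') ((norm_snd_le r).trans h)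
    (by rw [norm_conj]; exact (norm_snd_le r').trans h')
  have e1 : (r.1 + ℓ * r.2) * d.1 + r.2 * (d.2 - ℓ * d.1) = dotR r d := by
    unfold dotR
    ring
  have e2 : conj (r'.1 + ℓ * r'.2) * conj d'.1 + conj r'.2 * conj (d'.2 - ℓ * d'.1) =
      conj (dotR r' d') := by
    rw [← map_mul, ← map_mul, ← map_add]
    unfold dotR
    congr 1
    ring
  rw [e1, e2, norm_conj, norm_conj, norm_conj] at h1
  exact (mul_le_mul_of_nonneg_left (add_le_add (cla_dat hl d) (cla_dat hl d'))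
    (norm_nonneg _)).trans h1

theorem cla_sq (x : ℂ × ℂ) : ‖x‖ ^ 2 ≤ normSq x.1 + normSq x.2 := by
  rw [normSq_eq_norm_sq, normSq_eq_norm_sq, Prod.norm_def]
  rcases le_total ‖x.1‖ ‖x.2‖ with h | h
  · rw [max_eq_right h]
    nlinarith [norm_nonneg x.1]
  · rw [max_eq_left h]
    nlinarith [norm_nonneg x.2]

theorem cla_det {x x' : ℂ × ℂ} (h : x.1 * conj x'.1 + x.2 * conj x'.2 = 0) :
    ‖x‖ * ‖x'‖ ≤ ‖x.1 * x'.2 - x.2 * x'.1‖ := by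
  have e : normSq (x.1 * x'.2 - x.2 * x'.1) + normSq (x.1 * conj x'.1 + x.2 * conj x'.2) =
      (normSq x.1 + normSq x.2) * (normSq x'.1 + normSq x'.2) := by
    simp [normSq_apply]
    ring
  rw [h, map_zero, add_zero, normSq_eq_norm_sq] at e
  refine (sq_le_sq₀ (by positivity) (norm_nonneg _)).1 ?_
  rw [e, mul_pow]
  exact mul_le_mul (cla_sq x) (cla_sq x') (by positivity)
    (add_nonneg (normSq_nonneg _) (normSq_nonneg _))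

theorem cla_sub {p q x y : ℂ} {P S : ℝ} (hx : ‖x‖ ≤ P) (hy : ‖y‖ ≤ S) :
    ‖p * x - q * y‖ ≤ ‖p‖ * P + ‖q‖ * S := by
  have h1 := norm_sub_le (p * x) (q * y)
  rw [norm_mul, norm_mul] at h1
  nlinarith [mul_le_mul_of_nonneg_left hx (norm_nonneg p),
    mul_le_mul_of_nonneg_left hy (norm_nonneg q)]

theorem c_orth {R x x' : ℂ × ℂ} (h : x.1 * conj x'.1 + x.2 * conj x'.2 = 0) :
    ‖R‖ * ‖x‖ * ‖x'‖ ≤ 2 * (‖dotR R x‖ * ‖x'‖ + ‖dotR R x'‖ * ‖x‖) := by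
  have h1 := cla_det h
  have h2 : ‖R.1‖ * ‖x.1 * x'.2 - x.2 * x'.1‖ ≤ ‖dotR R x‖ * ‖x'‖ + ‖dotR R x'‖ * ‖x‖ := by
    have e : R.1 * (x.1 * x'.2 - x.2 * x'.1) = dotR R x * x'.2 - dotR R x' * x.2 := by
      unfold dotR
      ring
    rw [← norm_mul, e]
    exact cla_sub (norm_snd_le _) (norm_snd_le _)
  have h3 : ‖R.2‖ * ‖x.1 * x'.2 - x.2 * x'.1‖ ≤ ‖dotR R x‖ * ‖x'‖ + ‖dotR R x'‖ * ‖x‖ := by
    have e : R.2 * (x.1 * x'.2 - x.2 * x'.1) = -(dotR R x * x'.1 - dotR R x' * x.1) := by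
      unfold dotR
      ring
    rw [← norm_mul, e, norm_neg]
    exact cla_sub (norm_fst_le _) (norm_fst_le _)
  have h4 : ‖R‖ * ‖x.1 * x'.2 - x.2 * x'.1‖ ≤ ‖dotR R x‖ * ‖x'‖ + ‖dotR R x'‖ * ‖x‖ := by
    rw [Prod.norm_def R]
    rcases le_total ‖R.1‖ ‖R.2‖ with h | h
    · rwa [max_eq_right h]
    · rwa [max_eq_left h]
  have h5 : 0 ≤ ‖dotR R x‖ * ‖x'‖ + ‖dotR R x'‖ * ‖x‖ := by positivity
  have h6 := mul_le_mul_of_nonneg_left h1 (norm_nonneg R)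
  rw [mul_assoc]
  linarith

theorem cla_row {ℓ : ℝ} (hl : 0 ≤ ℓ) {α : Type*} [TopologicalSpace α] {s : Set α} {n : α → ℂ}
    {x : α → ℝ} (hn : Continuous n) (hx : Continuous x)
    (h : ∀ a ∈ s, -7 / 2 < (n a).re ∧ 0 < x a) : ContinuousOn (fun a => row (n a) ℓ (x a)) s :=
  ContinuousOn.comp (g := fun p : ℂ × ℝ => row p.1 ℓ p.2) (f := fun a => (n a, x a))
    (row_continuous hl) (hn.prodMk hx).continuousOn fun a ha => h a ha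

theorem cla_cpt (a Λ : ℝ) (z : ℂ) : IsCompact {ν : ℂ | a ≤ ν.re ∧ ‖ν - z‖ ≤ Λ} := by
  refine (isCompact_closedBall z Λ).of_isClosed_subset ?_ fun ν hν => mem_closedBall_iff_norm.2 hν.2
  exact (isClosed_le continuous_const continuous_re).inter
    (isClosed_le (continuous_id.sub continuous_const).norm continuous_const)

theorem cla_ub {p : ℕ → ℝ → Prop} (hp : ∀ l, ∃ R, ∀ R', R ≤ R' → p l R') (l0 : ℕ) :
    ∃ R, ∀ l ≤ l0, p l R := by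
  choose R hR using hp
  refine ⟨∑ l ∈ Finset.range (l0 + 1), |R l|, fun l hl => hR l _ ((le_abs_self _).trans ?_)⟩
  exact Finset.single_le_sum (f := fun l => |R l|) (fun i _ => abs_nonneg _)
    (Finset.mem_range.2 (Nat.lt_succ_of_le hl))

theorem cla_lb {p : ℕ → ℝ → Prop} (hp : ∀ l, ∃ d > 0, ∀ d', d' ≤ d → p l d') (l0 : ℕ) :
    ∃ d > 0, ∀ l ≤ l0, p l d := by
  choose d hd hp using hp
  obtain ⟨j, -, hj⟩ := (Finset.range (l0 + 1)).exists_min_image d ⟨0, by simp⟩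
  exact ⟨d j, hd j, fun l hl => hp l _ (hj l (Finset.mem_range.2 (Nat.lt_succ_of_le hl)))⟩

theorem c_row_bdd (Λ : ℝ) (l0 : ℕ) : ∃ R, ∀ l ≤ l0, ∀ ν : ℂ, -3 ≤ ν.re → ‖ν‖ ≤ Λ →
    ∀ X ∈ Icc (2 : ℝ) 4, ‖row ν (((l : ℕ) + 5) / 2) X‖ ≤ R := by
  refine cla_ub (p := fun l R => ∀ ν : ℂ, -3 ≤ ν.re → ‖ν‖ ≤ Λ →
    ∀ X ∈ Icc (2 : ℝ) 4, ‖row ν (((l : ℕ) + 5) / 2) X‖ ≤ R) (fun l => ?_) l0
  have hK := (cla_cpt (-3) Λ 0).prod (isCompact_Icc (a := (2 : ℝ)) (b := 4))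
  obtain ⟨R, hR⟩ := hK.exists_bound_of_continuousOn
    (cla_row (ℓ := ((l : ℕ) + 5) / 2) (by positivity) continuous_fst continuous_snd
      fun a ha => ⟨by linarith [ha.1.1], by linarith [ha.2.1]⟩)
  exact ⟨R, fun R' h ν h1 h2 X hX => (hR (ν, X) ⟨⟨h1, by rwa [sub_zero]⟩, hX⟩).trans h⟩

theorem cla_cont {ℓ : ℝ} (hl : 0 ≤ ℓ) {n : (ℝ × ℝ) × ℂ → ℂ} (hn : Continuous n)
    {s : Set ((ℝ × ℝ) × ℂ)} (h : ∀ a ∈ s, InBox a.1.1 a.1.2 ∧ 0 ≤ (n a).re) :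
    ContinuousOn (fun a => ‖Det a.1.1 a.1.2 ℓ (n a)‖) s := by
  have hx : ∀ a ∈ s, 0 < a.1.1 := fun a ha => lt_of_lt_of_le (by norm_num [Xlo]) (h a ha).1.1.1
  have h1 := cla_row hl (s := s) (n := fun a => n a - I * a.1.2 - 5 / 2) (x := fun a => a.1.1)
    (by fun_prop) (by fun_prop) fun a ha => ⟨by simp; linarith [(h a ha).2], hx a ha⟩
  have h2 := cla_row hl (s := s) (n := fun a => conj (n a) - I * a.1.2 - 5 / 2)
    (x := fun a => a.1.1) (by fun_prop) (by fun_prop)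
    fun a ha => ⟨by simp; linarith [(h a ha).2], hx a ha⟩
  have h3 : Continuous fun p : (ℂ × ℂ) × ℂ × ℂ => ‖det2 ℓ p.1 p.2‖ := by
    unfold det2
    fun_prop
  simp only [c_Det]
  exact Continuous.comp_continuousOn (g := fun p : (ℂ × ℂ) × ℂ × ℂ => ‖det2 ℓ p.1 p.2‖)
    (f := fun a : (ℝ × ℝ) × ℂ => (row (n a - I * a.1.2 - 5 / 2) ℓ a.1.1,
      row (conj (n a) - I * a.1.2 - 5 / 2) ℓ a.1.1)) h3 (h1.prodMk h2)

theorem cla_box : IsCompact {p : ℝ × ℝ | InBox p.1 p.2} :=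
  (isCompact_Icc (a := Xlo) (b := Xhi)).prod (isCompact_Icc (a := βlo) (b := βhi))

theorem cla_near {δ c η : ℝ} (hη : 0 < η) (l : ℕ) {z : ℂ} (hz : 0 ≤ z.re)
    (h : ∀ X β, InBox X β → ∀ lam : ℂ, 0 ≤ lam.re → ‖lam - z‖ ≤ δ → Det X β ((l + 5) / 2) z = 0 →
      c * ‖lam - z‖ ≤ ‖Det X β ((l + 5) / 2) lam‖) :
    ∃ η' > 0, ∀ X β, InBox X β → ∀ lam : ℂ, 0 ≤ lam.re → ‖lam - z‖ ≤ δ →
      ‖Det X β ((l + 5) / 2) z‖ ≤ η' → c * ‖lam - z‖ - η ≤ ‖Det X β ((l + 5) / 2) lam‖ := by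
  have hK := cla_box.prod (cla_cpt 0 δ z)
  have hl : (0 : ℝ) ≤ (l + 5) / 2 := by positivity
  have h1 := cla_cont hl (n := fun _ => z) continuous_const
    (s := {p : ℝ × ℝ | InBox p.1 p.2} ×ˢ {ν : ℂ | 0 ≤ ν.re ∧ ‖ν - z‖ ≤ δ}) fun a ha => ⟨ha.1, hz⟩
  have h2 := cla_cont hl (n := fun a => a.2) continuous_snd
    (s := {p : ℝ × ℝ | InBox p.1 p.2} ×ˢ {ν : ℂ | 0 ≤ ν.re ∧ ‖ν - z‖ ≤ δ})
    fun a ha => ⟨ha.1, ha.2.1⟩
  have h3 : Continuous fun a : (ℝ × ℝ) × ℂ => η - c * ‖a.2 - z‖ := by fun_prop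
  obtain ⟨d, hd, hb⟩ := hK.exists_forall_le' (h1.sup (h2.add h3.continuousOn)) (a := 0)
    fun a ha => by
      rcases eq_or_ne (Det a.1.1 a.1.2 ((l + 5) / 2) z) 0 with e | e
      · have := h _ _ ha.1 _ ha.2.1 ha.2.2 e
        exact lt_sup_of_lt_right (by simp only [Pi.add_apply]; linarith)
      · exact lt_sup_of_lt_left (norm_pos_iff.2 e)
  refine ⟨d / 2, by linarith, fun X β hX lam h4 h5 h6 => ?_⟩
  rcases le_sup_iff.1 (hb ((X, β), lam) ⟨hX, h4, h5⟩) with h7 | h7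
  · simp only at h7
    linarith
  · simp only [Pi.add_apply] at h7
    linarith

theorem c_detq : ∃ δ c : ℝ, 0 < δ ∧ δ ≤ 1 / 8 ∧ 0 < c ∧
    (∀ η > 0, ∃ η' > 0, ∀ X β, InBox X β → ∀ (l : ℕ) (z lam : ℂ), Sym l z → 0 ≤ lam.re →
      ‖lam - z‖ ≤ δ → ‖Det X β ((l + 5) / 2) z‖ ≤ η' →
        c * ‖lam - z‖ - η ≤ ‖Det X β ((l + 5) / 2) lam‖) ∧
    ∀ (Λ : ℝ) (l0 : ℕ), ∃ d > 0, ∀ X β, InBox X β → ∀ l ≤ l0, ∀ lam : ℂ, 0 ≤ lam.re → ‖lam‖ ≤ Λ →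
      (∀ z, Sym l z → δ ≤ ‖lam - z‖) → d ≤ ‖Det X β (((l : ℕ) + 5) / 2) lam‖ := by
  obtain ⟨δ, c, h0, h1, h2, h⟩ := det_main
  refine ⟨δ, c, h0, h1, h2, fun η hη => ?_, fun Λ l0 => ?_⟩
  · obtain ⟨a, ha, hA⟩ := cla_near hη 0 (z := 0) (by simp) fun X β hX lam hl =>
      (h X β hX 0 lam hl).2 0 (Or.inl ⟨rfl, rfl⟩)
    obtain ⟨b, hb, hB⟩ := cla_near hη 0 (z := 1) (by simp) fun X β hX lam hl =>
      (h X β hX 0 lam hl).2 1 (Or.inr (Or.inl ⟨rfl, rfl⟩))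
    obtain ⟨d, hd, hD⟩ := cla_near hη 1 (z := 1 / 2) (by simp) fun X β hX lam hl =>
      (h X β hX 1 lam hl).2 (1 / 2) (Or.inr (Or.inr ⟨rfl, rfl⟩))
    refine ⟨min a (min b d), lt_min ha (lt_min hb hd), fun X β hX l z lam hz h3 h4 h5 => ?_⟩
    rcases hz with ⟨rfl, rfl⟩ | ⟨rfl, rfl⟩ | ⟨rfl, rfl⟩
    · exact hA X β hX lam h3 h4 (h5.trans (min_le_left _ _))
    · exact hB X β hX lam h3 h4 (h5.trans ((min_le_right _ _).trans (min_le_left _ _)))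
    · exact hD X β hX lam h3 h4 (h5.trans ((min_le_right _ _).trans (min_le_right _ _)))
  · obtain ⟨d, hd, hD⟩ := cla_lb (p := fun l d => ∀ X β, InBox X β → ∀ lam : ℂ, 0 ≤ lam.re →
        ‖lam‖ ≤ Λ → (∀ z, Sym l z → δ ≤ ‖lam - z‖) → d ≤ ‖Det X β (((l : ℕ) + 5) / 2) lam‖)
      (fun l => by
        have hc : IsClosed {lam : ℂ | ∀ z, Sym l z → δ ≤ ‖lam - z‖} := by
          simp only [ofPred_forall]
          exact isClosed_iInter fun z => isClosed_iInter fun _ =>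
            isClosed_le continuous_const (continuous_id.sub continuous_const).norm
        have hK := cla_box.prod ((cla_cpt 0 Λ 0).inter_right hc)
        obtain ⟨d, hd, hb⟩ := hK.exists_forall_le' (cla_cont (ℓ := ((l : ℕ) + 5) / 2)
          (by positivity) (n := fun a => a.2) continuous_snd fun a ha => ⟨ha.1, ha.2.1.1⟩) (a := 0)
          fun a ha => norm_pos_iff.2 ((h _ _ ha.1 l _ ha.2.1.1).1 ha.2.2)
        exact ⟨d, hd, fun d' hd' X β hX lam h3 h4 h5 =>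
          hd'.trans (hb ((X, β), lam) ⟨hX, ⟨h3, by rwa [sub_zero]⟩, h5⟩)⟩) l0
    exact ⟨d, hd, fun X β hX l hl => hD l hl X β hX⟩

end Vale.Agent.P139
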