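import Vale.Agent.P139.X
import Vale.Agent.P139.C.Sys
import Vale.Agent.P139.C.Co
import Vale.Agent.P139.C.R4a
import Vale.Agent.P139.C.Modes
import Vale.Agent.P139.C.LA

/-! P139 task C/BC (PROOF.md section C). The free boundary conditions hold approximately. `c_sys`, `c_interior` with `s1 = 10 ε ‖κ‖`, `s2 = 10 ‖κ‖` (`c_mode_size`).
To avoid the phase of `q X0` the data are divided by `q X0`: `dat f X0 / q`, `dat (conj g) X0 / q`; `f/q + g/conj q = 2η`,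
`X (f'/q - g'/conj q) = 2i X ψ1 + O(ε)` (`c_FG`, `near`), `ℓ - 5/2 = l/2`. `c_detz`: `ext_hom` for the mode, `c_bc` with `κ = 0`, `c_cramer`,
`‖dat e X0‖ ≥ 1/10`, and `row_lip` to pass from `z + a` to `z` (`Q.nu z = (z + a) - iβ - 5/2`).
-/

noncomputable section

open MeasureTheory Filter Topology Set Complex
open scoped ComplexConjugate

namespace Vale.Agent.P139

variable {c : Co} {L Y : ℝ} {lam : ℂ} {u u1 v η η1 ψ ψ1 sη sψ f g ef eg : ℝ → ℂ} {m l : ℕ}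
  {Q : Prof m}

theorem cbc_lam (g : ℝ → ℂ) (X : ℝ) : Lam (fun Y => conj (g Y)) X = conj (Lam g X) := by
  have : deriv (fun Y => conj (g Y)) X = conj (deriv g X) := deriv.star (f := g)
  simp only [Lam, this, map_mul, conj_ofReal]

theorem cbc_half {a b A B : ℂ} (h1 : a + I * b = A) (h2 : a - I * b = B) :
    ‖a‖ + ‖b‖ ≤ ‖A‖ + ‖B‖ := by
  have e1 : 2 * a = A + B := by rw [← h1, ← h2]; ring
  have e2 : 2 * I * b = A - B := by rw [← h1, ← h2]; ring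
  have n1 := norm_add_le A B
  have n2 := norm_sub_le A B
  rw [← e1] at n1
  rw [← e2] at n2
  simp only [norm_mul, norm_ofNat, norm_I, mul_one] at n1 n2
  linarith

theorem cbc_one {q x x1 lg : ℂ} {X ε D : ℝ} (hq : 1 / 2 ≤ ‖q‖) (hX : 2 ≤ X) (hl : ‖lg‖ ≤ ε)
    (hε : ε ≤ 1) (h1 : ‖x‖ ≤ D) (h2 : ‖X * x1 + 5 / 2 * x‖ ≤ D) :
    ‖x / q‖ ≤ 2 * D ∧ ‖(x1 - lg * x) / q‖ ≤ 6 * D := by
  have q0 : 0 < ‖q‖ := by linarith
  have D0 : 0 ≤ D := (norm_nonneg _).trans h1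
  have a1 : ‖(X : ℂ) * x1‖ ≤ 7 / 2 * D := by
    have := norm_sub_le ((X : ℂ) * x1 + 5 / 2 * x) (5 / 2 * x)
    rw [add_sub_cancel_right, norm_mul (5 / 2 : ℂ)] at this
    have e : ‖(5 / 2 : ℂ)‖ = 5 / 2 := by simp
    rw [e] at this
    linarith
  rw [norm_mul, norm_real, Real.norm_of_nonneg (by linarith)] at a1
  have a2 : ‖x1‖ ≤ 2 * D := by nlinarith [norm_nonneg x1]
  have a3 : ‖lg * x‖ ≤ D := by
    rw [norm_mul]
    nlinarith [norm_nonneg lg, norm_nonneg x]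
  have a4 := norm_sub_le x1 (lg * x)
  rw [norm_div, norm_div, div_le_iff₀ q0, div_le_iff₀ q0]
  constructor <;> nlinarith

theorem cbc_alg {q x x1 y y1 lg a b a1 b1 : ℂ} {X : ℝ} (l : ℕ) (hq : q ≠ 0)
    (h1 : a + I * b = x / q) (h2 : a - I * b = y / conj q) (h3 : a1 + I * b1 = (x1 - lg * x) / q)
    (h4 : a1 - I * b1 = (y1 - conj lg * y) / conj q) :
    bcd ((l + 5) / 2) (q⁻¹ • (x, X * x1 + 5 / 2 * x))
        (q⁻¹ • (conj y, conj (X * y1) + 5 / 2 * conj y)) ≤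
      2 * (‖a‖ + ‖X * b1 - l / 2 * b‖) + |X| * (‖lg‖ * (‖x / q‖ + ‖y / conj q‖)) := by
  have hq' : conj q ≠ 0 := (map_ne_zero _).2 hq
  have e1 : q⁻¹ * x + conj (q⁻¹ * conj y) = 2 * a := by
    simp only [map_mul, map_inv₀, conj_conj]
    rw [div_eq_inv_mul] at h1 h2
    linear_combination -h1 - h2
  have e2 : q⁻¹ * (X * x1 + 5 / 2 * x) - (((l + 5) / 2 : ℝ) : ℂ) * (q⁻¹ * x) -
      conj (q⁻¹ * (conj (X * y1) + 5 / 2 * conj y) - (((l + 5) / 2 : ℝ) : ℂ) * (q⁻¹ * conj y)) =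
      2 * I * (X * b1 - l / 2 * b) + X * (lg * (x / q) - conj lg * (y / conj q)) := by
    simp only [map_mul, map_inv₀, conj_conj, map_sub, map_add, conj_ofReal, map_div₀, map_ofNat]
    rw [div_eq_inv_mul] at h1 h2 h3 h4
    push_cast
    simp only [div_eq_inv_mul x, div_eq_inv_mul y]
    linear_combination (-X : ℂ) * h3 + X * h4 + (l : ℂ) / 2 * h1 - (l : ℂ) / 2 * h2
  simp only [bcd, Prod.smul_mk, smul_eq_mul]
  rw [e1, e2]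
  have n1 := norm_add_le (2 * I * (X * b1 - l / 2 * b)) (X * (lg * (x / q) - conj lg * (y / conj q)))
  have n2 := norm_sub_le (lg * (x / q)) (conj lg * (y / conj q))
  simp only [norm_mul, norm_ofNat, norm_I, mul_one, norm_real, Real.norm_eq_abs,
    RCLike.norm_conj] at n1 n2 ⊢
  have n3 := mul_le_mul_of_nonneg_left n2 (abs_nonneg X)
  linarith

theorem cbc_le_sqrt {ε : ℝ} (h0 : 0 < ε) (h1 : ε ≤ 1) : ε ≤ √√ε := by
  have a : ∀ t : ℝ, 0 ≤ t → t ≤ 1 → t ≤ √t := fun t t0 t1 =>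
    Real.le_sqrt_of_sq_le (by nlinarith)
  exact (a ε h0.le h1).trans (a _ (Real.sqrt_nonneg _) (Real.sqrt_le_one.2 h1))

theorem c_bc (C Λ : ℝ) (hC : 0 < C) (l0 : ℕ) : ∃ K ε0 : ℝ, 0 < ε0 ∧ 0 ≤ K ∧ ∀ (m : ℕ) (Q : Prof m)
    (X0 ε : ℝ), ε ∈ Ioc 0 ε0 → Q.Good X0 ε C → ∀ (l : ℕ) (lam κ z : ℂ) (f g e : ℝ → ℂ), l ≤ l0 →
      ‖lam‖ ≤ Λ → (κ = 0 ∨ Q.IsMode l z e) →
      Q.RSol l lam f g (fun X => κ * e X) (fun X => κ * conj (e X)) →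
      bcd ((l + 5) / 2) ((Q.q X0)⁻¹ • dat f X0) ((Q.q X0)⁻¹ • dat (fun Y => conj (g Y)) X0) ≤
        K * √√ε * (‖dat f X0‖ + ‖dat (fun Y => conj (g Y)) X0‖ + ‖κ‖) := by
  obtain ⟨K1, hK1, h1⟩ := c_co C hC
  obtain ⟨K2, ε2, hε2, hK2, h2⟩ := c_interior K1 Λ hK1 l0
  refine ⟨60 * K2 + 6, min ε2 (1 / 1000), lt_min hε2 (by norm_num), by positivity, ?_⟩
  intro m Q X0 ε hε hG l lam κ z f g e hl hlam hκ hR
  have e1 : ε ≤ ε2 := hε.2.trans (min_le_left _ _)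
  have e2 : ε ≤ 1 / 1000 := hε.2.trans (min_le_right _ _)
  obtain ⟨c, hc, h3⟩ := h1 m Q
  obtain ⟨hB, -⟩ := h3 X0 ε ⟨hε.1, by linarith⟩ hG
  obtain ⟨x2, x3⟩ := hB.X0_mem
  have x0 : 0 < X0 := by linarith
  have hsrc : (ContinuousOn (fun X => κ * e X) (Ioi 0) ∧
      ContinuousOn (fun X => κ * conj (e X)) (Ioi 0) ∧
      ∃ K, ∀ X ∈ Ioc (0 : ℝ) 1, ‖κ * e X‖ ≤ K ∧ ‖κ * conj (e X)‖ ≤ K) ∧
      ∀ X ∈ Ioc 0 X0, ‖Q.Fη (fun X => κ * e X) (fun X => κ * conj (e X)) X‖ ≤ 10 * ε * ‖κ‖ ∧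
        ‖Q.Fψ (fun X => κ * e X) (fun X => κ * conj (e X)) X‖ ≤ 10 * ‖κ‖ := by
    rcases hκ with rfl | hm
    · simp [Prof.Fη, Prof.Fψ, continuousOn_const]
      exact ⟨0, fun _ _ _ => le_rfl⟩
    · have hM := c_mode hm
      obtain ⟨K0, hK0⟩ := hM.at0
      refine ⟨⟨continuousOn_const.mul hM.sf.continuousOn,
        continuousOn_const.mul hM.sg.continuousOn, ‖κ‖ * K0, fun X hX => ?_⟩, fun X hX => ?_⟩
      · rw [norm_mul, norm_mul]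
        exact ⟨mul_le_mul_of_nonneg_left (hK0 X hX).1 (norm_nonneg _),
          mul_le_mul_of_nonneg_left (hK0 X hX).2.2.1 (norm_nonneg _)⟩
      · obtain ⟨s1, s2⟩ := (c_mode_size hG ⟨hε.1, e2⟩ hm).2.2 X hX
        have a1 : Q.Fη (fun X => κ * e X) (fun X => κ * conj (e X)) X =
            Q.Fη e (fun Y => conj (e Y)) X * κ := by simp only [Prof.Fη]; ring
        have a2 : Q.Fψ (fun X => κ * e X) (fun X => κ * conj (e X)) X =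
            Q.Fψ e (fun Y => conj (e Y)) X * κ := by simp only [Prof.Fψ]; ring
        rw [a1, a2, norm_mul, norm_mul]
        exact ⟨mul_le_mul_of_nonneg_right s1 (norm_nonneg _),
          mul_le_mul_of_nonneg_right s2 (norm_nonneg _)⟩
  have hI := h2 c X0 ε _ _ _ l lam _ _ _ _ _ _ hB ⟨hε.1, e1⟩
    (c_sys hc hR hsrc.1.1 hsrc.1.2.1 hsrc.1.2.2) hl hlam hsrc.2
  obtain ⟨f1, f2, f3, f4⟩ := c_FG hR x0
  obtain ⟨n1, n2⟩ := hG.near X0 ⟨x0.le, le_rfl⟩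
  have hq : 1 / 2 ≤ ‖Q.q X0‖ := by linarith [(abs_le.1 n1).1]
  have hA := cbc_alg (X := X0) l (Q.ne X0 x0.le) f1 f2 f3 f4
  have d1 : dat f X0 = (f X0, X0 * deriv f X0 + 5 / 2 * f X0) := rfl
  have d2 : dat (fun Y => conj (g Y)) X0 =
      (conj (g X0), conj (X0 * deriv g X0) + 5 / 2 * conj (g X0)) := by
    simp only [dat, cbc_lam]; rfl
  rw [← d1, ← d2, abs_of_pos x0] at hA
  obtain ⟨b1, b2⟩ := cbc_one (x := f X0) (x1 := deriv f X0) hq x2 n2 (by linarith) (norm_fst_le (dat f X0))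
    (norm_snd_le (dat f X0))
  obtain ⟨b3, b4⟩ := cbc_one (q := conj (Q.q X0)) (x := g X0) (x1 := deriv g X0)
    (lg := conj (Q.lg X0)) (D := ‖dat (fun Y => conj (g Y)) X0‖) (hq.trans (RCLike.norm_conj _).ge) x2
    ((RCLike.norm_conj _).le.trans n2) (by linarith)
    ((RCLike.norm_conj (g X0)).ge.trans (norm_fst_le (dat (fun Y => conj (g Y)) X0)))
    (by
      refine le_trans (le_of_eq ?_) (norm_snd_le (dat (fun Y => conj (g Y)) X0))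
      rw [d2, ← RCLike.norm_conj]
      simp only [map_add, map_mul, map_div₀, map_ofNat])
  have c1 := cbc_half f1 f2
  have c2 := cbc_half f3 f4
  have t1 := cbc_le_sqrt hε.1 (by linarith)
  generalize √√ε = t at *
  generalize ‖dat f X0‖ = D1 at *
  generalize ‖dat (fun Y => conj (g Y)) X0‖ = D2 at *
  have k0 := norm_nonneg κ
  have t0 : 0 ≤ t := hε.1.le.trans t1
  have D0 : 0 ≤ D1 + D2 := by linarith [norm_nonneg (f X0 / Q.q X0), norm_nonneg (g X0 / conj (Q.q X0))]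
  have u1 : ε * ‖κ‖ ≤ t * ‖κ‖ := mul_le_mul_of_nonneg_right t1 k0
  have u2 : ε * ‖κ‖ ≤ ‖κ‖ := mul_le_of_le_one_left k0 (by linarith)
  have u3 : t * (‖Q.Fη f g X0‖ + ‖Q.Fψ f g X0‖ + ‖deriv (Q.Fη f g) X0‖ + ‖deriv (Q.Fψ f g) X0‖ +
      10 * ε * ‖κ‖ + 10 * ‖κ‖) ≤ t * (8 * (D1 + D2) + 20 * ‖κ‖) :=
    mul_le_mul_of_nonneg_left (by linarith) t0
  have u4 := hI.trans (mul_le_mul_of_nonneg_left (show _ ≤ 30 * (t * (D1 + D2 + ‖κ‖)) by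
    nlinarith [mul_nonneg t0 D0]) hK2)
  have u5 : X0 * (‖Q.lg X0‖ * (‖f X0 / Q.q X0‖ + ‖g X0 / conj (Q.q X0)‖)) ≤
      3 * (t * (2 * (D1 + D2))) :=
    mul_le_mul x3 (mul_le_mul (n2.trans t1) (by linarith) (by positivity) t0) (by positivity)
      (by norm_num)
  nlinarith [mul_nonneg t0 k0]

theorem cbc_dot (q : ℂ) (r r0 x : ℂ × ℂ) :
    ‖dotR r (q • x)‖ ≤ ‖q‖ * (‖dotR r0 x‖ + 2 * (‖r - r0‖ * ‖x‖)) := by
  have e : dotR r (q • x) = q * (dotR r0 x + ((r - r0).1 * x.1 + (r - r0).2 * x.2)) := by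
    simp only [dotR, Prod.smul_fst, Prod.smul_snd, smul_eq_mul, Prod.fst_sub, Prod.snd_sub]; ring
  rw [e, norm_mul]
  refine mul_le_mul_of_nonneg_left ((norm_add_le _ _).trans (add_le_add le_rfl
    ((norm_add_le _ _).trans ?_))) (norm_nonneg _)
  rw [norm_mul, norm_mul]
  have a1 := mul_le_mul (norm_fst_le (r - r0)) (norm_fst_le x) (norm_nonneg _) (norm_nonneg _)
  have a2 := mul_le_mul (norm_snd_le (r - r0)) (norm_snd_le x) (norm_nonneg _) (norm_nonneg _)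
  linarith

theorem cbc_num {K1 K2 R Lp l ε t a D b n1 E E1 iq nd dr dr0 rr : ℝ} (hK1 : 0 ≤ K1) (hR : 0 ≤ R)
    (hL : 0 ≤ Lp) (l0 : 0 ≤ l) (l1 : l ≤ 1) (h0 : 0 < ε) (h1 : ε ≤ t) (a0 : 0 ≤ a) (a1 : a ≤ ε)
    (D0 : 0 ≤ D) (b0 : 0 ≤ b) (n0 : 0 ≤ n1) (s2 : n1 ≤ 10) (E0 : 0 ≤ E) (w1 : E ≤ 10)
    (E10 : 0 ≤ E1) (w2 : E1 ≤ 35) (q3 : iq ≤ 2) (q5 : 1 / 20 ≤ nd) (r0 : 0 ≤ dr) (r1 : 0 ≤ dr0)
    (r2 : 0 ≤ rr) (lip : rr ≤ Lp * a) (hb : b ≤ K1 * t * (n1 + n1))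
    (hx : dr0 + dr0 ≤ K2 * ε * (l + 1) ^ 4 * ((l + 1) * (E + E) + (E1 + E1)))
    (dt : dr ≤ iq * (dr0 + 2 * (rr * n1)))
    (cr : D * (nd + nd) ≤ 20 * (1 + (l + 5) / 2) ^ 3 * (R * (dr + dr) + R ^ 2 * b)) :
    D ≤ 12800 * (R * (4 * (1760 * |K2| + 20 * Lp)) + R ^ 2 * (20 * K1)) * t := by
  have t0 : 0 ≤ t := h0.le.trans h1
  have w3 : K2 * ε * (l + 1) ^ 4 * ((l + 1) * (E + E) + (E1 + E1)) ≤ |K2| * t * 2 ^ 4 * 110 := by
    refine mul_le_mul (mul_le_mul ?_ (pow_le_pow_left₀ (by positivity) (by linarith) 4)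
      (by positivity) (by positivity)) ?_ (by positivity) (by positivity)
    · exact mul_le_mul (le_abs_self _) h1 h0.le (abs_nonneg _)
    · nlinarith
  have w4 : rr * n1 ≤ Lp * t * 10 :=
    mul_le_mul (lip.trans (mul_le_mul_of_nonneg_left (a1.trans h1) hL)) s2 n0 (by positivity)
  have w5 := dt.trans (mul_le_mul q3 (show _ ≤ (1760 * |K2| + 20 * Lp) * t by linarith)
    (by positivity) (by norm_num))
  have w6 := hb.trans (mul_le_mul_of_nonneg_left (show _ ≤ (20 : ℝ) by linarith) (by positivity))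
  have w7 : 20 * (1 + (l + 5) / 2) ^ 3 ≤ 20 * 4 ^ 3 :=
    mul_le_mul_of_nonneg_left (pow_le_pow_left₀ (by positivity) (by linarith) 3) (by norm_num)
  have w8 := cr.trans (mul_le_mul w7 (add_le_add (mul_le_mul_of_nonneg_left (add_le_add w5 w5) hR)
    (mul_le_mul_of_nonneg_left w6 (by positivity))) (by positivity) (by norm_num))
  have w9 := mul_le_mul_of_nonneg_left (add_le_add q5 q5) D0
  linarith

theorem cbc_nu {z : ℂ} {β a : ℝ} (zr : 0 ≤ z.re) (zn : ‖z‖ ≤ 1) (b0 : 0 ≤ β) (b1 : β ≤ 1)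
    (a0 : 0 ≤ a) (a1 : a ≤ 1) : -3 ≤ (z - I * β - 5 / 2).re ∧ -3 ≤ (z - I * β - 5 / 2 + a).re ∧
      ‖z - I * β - 5 / 2‖ ≤ 6 ∧ ‖z - I * β - 5 / 2 + a‖ ≤ 6 ∧
      ‖z - I * β - 5 / 2 - (z - I * β - 5 / 2 + a)‖ = a := by
  have nβ : ‖I * (β : ℂ)‖ ≤ 1 := by rwa [norm_mul, norm_I, one_mul, norm_real, Real.norm_of_nonneg b0]
  have n5 : ‖(5 / 2 : ℂ)‖ = 5 / 2 := by simp
  have nν : ‖z - I * β - 5 / 2‖ ≤ 5 := by
    linarith [norm_sub_le (z - I * β) (5 / 2), norm_sub_le z (I * β)]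
  have na : ‖(a : ℂ)‖ = a := by rw [norm_real, Real.norm_of_nonneg a0]
  have rν : -3 ≤ (z - I * β - 5 / 2).re := by
    simp only [sub_re, mul_re, I_re, zero_mul, I_im, ofReal_im, mul_zero, sub_zero, div_ofNat_re,
      re_ofNat]
    linarith
  refine ⟨rν, by rw [add_re, ofReal_re]; linarith, by linarith,
    by linarith [norm_add_le (z - I * β - 5 / 2) a], by rw [sub_add_cancel_left, norm_neg, na]⟩

theorem cbc_q {q : ℂ} {ε : ℝ} {x : ℂ × ℂ} (n1 : |‖q‖ - 1| ≤ ε) (e3 : ε ≤ 1 / 1000)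
    (s1 : 1 / 10 ≤ ‖x‖) : ‖q⁻¹‖ ≤ 2 ∧ 1 / 20 ≤ ‖q⁻¹ • x‖ := by
  obtain ⟨q1, q2⟩ := abs_le.1 n1
  have q0 : 0 < ‖q‖ := by linarith
  have q4 : 1 / 2 ≤ ‖q⁻¹‖ := by
    rw [norm_inv, le_inv_comm₀ (by norm_num) q0]; linarith
  refine ⟨by rw [norm_inv, inv_le_comm₀ q0 two_pos]; linarith, ?_⟩
  rw [norm_smul]; nlinarith

theorem cbc_lam_le {e : ℝ → ℂ} {X : ℝ} (s2 : ‖dat e X‖ ≤ 10) : ‖e X‖ ≤ 10 ∧ ‖Lam e X‖ ≤ 35 := by
  have w1 : ‖e X‖ ≤ 10 := (norm_fst_le (dat e X)).trans s2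
  have n5 : ‖(5 / 2 : ℂ)‖ = 5 / 2 := by simp
  have := norm_sub_le (Lam e X + 5 / 2 * e X) (5 / 2 * e X)
  rw [add_sub_cancel_right, norm_mul, n5] at this
  have h' : ‖Lam e X + 5 / 2 * e X‖ ≤ 10 := (norm_snd_le (dat e X)).trans s2
  exact ⟨w1, by linarith⟩

theorem cbc_sym {z : ℂ} (hz : Sym l z) :
    l ≤ 1 ∧ conj z = z ∧ z.im = 0 ∧ z.re ∈ Icc (0 : ℝ) 1 ∧ ‖z‖ ≤ 1 := by
  rcases hz with ⟨rfl, rfl⟩ | ⟨rfl, rfl⟩ | ⟨rfl, rfl⟩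
  · norm_num
  · norm_num
  · refine ⟨le_rfl, by rw [map_div₀, map_one, map_ofNat], ?_⟩
    norm_num

theorem cbc_detz (C : ℝ) (hC : 0 < C) (l : ℕ) : ∃ M ε0 : ℝ, 0 < ε0 ∧ 0 ≤ M ∧ ∀ (m : ℕ)
    (Q : Prof m) (X0 ε : ℝ), ε ∈ Ioc 0 ε0 → Q.Good X0 ε C → ∀ z : ℂ, Sym l z →
      ‖Det X0 Q.β ((l + 5) / 2) z‖ ≤ M * √√ε := by
  obtain ⟨K1, ε1, hε1, hK1, h1⟩ := c_bc C 1 hC 1
  obtain ⟨K2, ε2, hε2, h2⟩ := ext_hom C 1
  obtain ⟨R, hR⟩ := c_row_bdd 6 1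
  have hl0 : (0 : ℝ) ≤ (l + 5) / 2 := by positivity
  obtain ⟨Lp, hL⟩ := row_lip hl0 6
  refine ⟨12800 * (|R| * (4 * (1760 * |K2| + 20 * |Lp|)) + |R| ^ 2 * (20 * K1)),
    min ε1 (min ε2 (1 / 1000)), lt_min hε1 (lt_min hε2 (by norm_num)), by positivity, ?_⟩
  intro m Q X0 ε hε hG z hz
  have e1 : ε ≤ ε1 := hε.2.trans (min_le_left _ _)
  have e2 : ε ≤ ε2 := hε.2.trans ((min_le_right _ _).trans (min_le_left _ _))
  have e3 : ε ≤ 1 / 1000 := hε.2.trans ((min_le_right _ _).trans (min_le_right _ _))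
  obtain ⟨e, he⟩ := c_mode_ex Q hz
  have hM := c_mode he
  obtain ⟨s1, s2, -⟩ := c_mode_size hG ⟨hε.1, e3⟩ he
  obtain ⟨l1, zc, zi, zr, zn⟩ := cbc_sym hz
  obtain ⟨⟨x1, x2⟩, β1, β2⟩ := hG.box
  simp only [Xlo, Xhi, βlo, βhi] at x1 x2 β1 β2
  have hX : X0 ∈ Icc (2 : ℝ) 4 := ⟨by linarith, by linarith⟩
  have a0 : 0 ≤ aa m := by unfold aa; positivity
  have a1 := hG.a_le
  obtain ⟨v1, v2, v3, v4, v5⟩ := cbc_nu (β := Q.β) zr.1 zn (by linarith) (by linarith) a0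
    (by linarith)
  obtain ⟨q3, q5⟩ := cbc_q (hG.near X0 ⟨by linarith, le_rfl⟩).1 e3 s1
  have t1 := cbc_le_sqrt hε.1 (by linarith)
  have hcc : (fun Y => conj (conj (e Y))) = e := by funext Y; exact conj_conj _
  have hb := h1 m Q X0 ε ⟨hε.1, e1⟩ hG l z 0 z e _ e l1 zn (Or.inl rfl) (by
    simp only [zero_mul]; exact hM)
  have hx := h2 m Q X0 ε hε.1 e2 hG l z e _ zr hM X0 ⟨le_rfl, by linarith⟩
  rw [hcc] at hb hx
  rw [zc, zi, cbc_lam] at hx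
  simp only [RCLike.norm_conj, abs_zero, Real.sqrt_zero, add_zero, norm_zero] at hx hb
  have eν : Q.nu z = z - I * Q.β - 5 / 2 + aa m := by simp only [Prof.nu, nu0]; ring
  rw [eν] at hx
  have lip := hL _ _ v1 v2 v3 v4 X0 hX
  rw [v5] at lip
  have rb := (hR l l1 _ v1 v3 X0 hX).trans (le_abs_self R)
  have cr := c_cramer hl0 (d := (Q.q X0)⁻¹ • dat e X0) (d' := (Q.q X0)⁻¹ • dat e X0) rb rb
  rw [c_Det, zc]
  exact cbc_num hK1 (abs_nonneg R) (abs_nonneg Lp) (Nat.cast_nonneg l) (by exact_mod_cast l1) hε.1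
    t1 a0 a1 (norm_nonneg _) (by unfold bcd; positivity) (norm_nonneg _) s2 (norm_nonneg _)
    (cbc_lam_le s2).1 (norm_nonneg _) (cbc_lam_le s2).2 q3 q5 (norm_nonneg _) (norm_nonneg _)
    (norm_nonneg _) (lip.trans (mul_le_mul_of_nonneg_right (le_abs_self _) a0)) hb hx
    (cbc_dot _ _ _ _) cr

theorem c_detz (C : ℝ) (hC : 0 < C) {η : ℝ} (hη : 0 < η) : ∃ ε0 : ℝ, 0 < ε0 ∧ ∀ (m : ℕ)
    (Q : Prof m) (X0 ε : ℝ), ε ∈ Ioc 0 ε0 → Q.Good X0 ε C → ∀ (l : ℕ) (z : ℂ), Sym l z →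
      ‖Det X0 Q.β ((l + 5) / 2) z‖ ≤ η := by
  have key : ∀ l : ℕ, ∃ ε0 : ℝ, 0 < ε0 ∧ ∀ (m : ℕ) (Q : Prof m) (X0 ε : ℝ), ε ∈ Ioc 0 ε0 →
      Q.Good X0 ε C → ∀ z : ℂ, Sym l z → ‖Det X0 Q.β ((l + 5) / 2) z‖ ≤ η := by
    intro l
    obtain ⟨M, ε1, hε1, hM, h⟩ := cbc_detz C hC l
    refine ⟨min ε1 (((η / (M + 1)) ^ 2) ^ 2), lt_min hε1 (by positivity), ?_⟩
    intro m Q X0 ε hε hG z hz
    refine (h m Q X0 ε ⟨hε.1, hε.2.trans (min_le_left _ _)⟩ hG z hz).trans ?_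
    have k : √√ε ≤ η / (M + 1) := Real.sqrt_le_iff.2 ⟨by positivity,
      Real.sqrt_le_iff.2 ⟨by positivity, hε.2.trans (min_le_right _ _)⟩⟩
    rw [le_div_iff₀ (by positivity)] at k
    nlinarith [Real.sqrt_nonneg √ε]
  obtain ⟨ε0, h0, k0⟩ := key 0
  obtain ⟨ε1, h1, k1⟩ := key 1
  refine ⟨min ε0 ε1, lt_min h0 h1, fun m Q X0 ε hε hG l z hz => ?_⟩
  have hl : l = 0 ∨ l = 1 := by rcases hz with h | h | h <;> simp [h.1]
  rcases hl with rfl | rfl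
  · exact k0 m Q X0 ε ⟨hε.1, hε.2.trans (min_le_left _ _)⟩ hG z hz
  · exact k1 m Q X0 ε ⟨hε.1, hε.2.trans (min_le_right _ _)⟩ hG z hz

end Vale.Agent.P139
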