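import Vale.Agent.P139.C.NearAbs

/-! P139 task C/Near: elementary lemmas. -/

noncomputable section

open MeasureTheory Filter Topology Set Complex
open scoped ComplexConjugate

namespace Vale.Agent.P139

variable {c : Co} {L Y : ℝ} {lam : ℂ} {u u1 v η η1 ψ ψ1 sη sψ f g ef eg : ℝ → ℂ} {m l : ℕ}
  {Q : Prof m}

theorem cnear_min {a b : ℝ} (ha : 0 < a) (hb : 0 < b) : ∃ c, 0 < c ∧ c ≤ a ∧ c ≤ b :=
  ⟨min a b, lt_min ha hb, min_le_left _ _, min_le_right _ _⟩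

theorem cnear_min9 {a1 a2 a3 a4 a5 a6 a7 a8 a9 : ℝ} (h1 : 0 < a1) (h2 : 0 < a2) (h3 : 0 < a3)
    (h4 : 0 < a4) (h5 : 0 < a5) (h6 : 0 < a6) (h7 : 0 < a7) (h8 : 0 < a8) (h9 : 0 < a9) :
    ∃ c, 0 < c ∧ c ≤ a1 ∧ c ≤ a2 ∧ c ≤ a3 ∧ c ≤ a4 ∧ c ≤ a5 ∧ c ≤ a6 ∧ c ≤ a7 ∧ c ≤ a8 ∧ c ≤ a9 := by
  refine ⟨min (min (min a1 a2) (min a3 a4)) (min (min (min a5 a6) (min a7 a8)) a9), by positivity,
    ?_⟩
  simp only [min_le_iff, le_refl, true_or, or_true, and_self]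

theorem cnear_lip : ∃ Lp, ∀ l : ℕ, l ≤ 1 → ∀ ν ν' : ℂ, -3 ≤ ν.re → -3 ≤ ν'.re → ‖ν‖ ≤ 5 →
    ‖ν'‖ ≤ 5 → ∀ X ∈ Icc (2 : ℝ) 4,
      ‖row ν ((l + 5) / 2) X - row ν' ((l + 5) / 2) X‖ ≤ Lp * ‖ν - ν'‖ := by
  obtain ⟨L0, h0⟩ := row_lip (ℓ := (((0 : ℕ) : ℝ) + 5) / 2) (by positivity) 5
  obtain ⟨L1, h1⟩ := row_lip (ℓ := (((1 : ℕ) : ℝ) + 5) / 2) (by positivity) 5
  refine ⟨max L0 L1, fun l hl ν ν' a b c d X hX => ?_⟩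
  interval_cases l
  · exact (h0 ν ν' a b c d X hX).trans
      (mul_le_mul_of_nonneg_right (le_max_left _ _) (norm_nonneg _))
  · exact (h1 ν ν' a b c d X hX).trans
      (mul_le_mul_of_nonneg_right (le_max_right _ _) (norm_nonneg _))

theorem cnear_sym {z : ℂ} (h : Sym l z) : l ≤ 1 ∧ ∃ x ∈ Icc (0 : ℝ) 1, z = x := by
  rcases h with ⟨rfl, rfl⟩ | ⟨rfl, rfl⟩ | ⟨rfl, rfl⟩
  · exact ⟨by norm_num, 0, by norm_num, by simp⟩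
  · exact ⟨by norm_num, 1, by norm_num, by simp⟩
  · exact ⟨le_rfl, 1 / 2, by norm_num, by simp⟩

theorem cnear_nu {X0 ε C x : ℝ} (hG : Q.Good X0 ε C) (hε : ε ≤ 1 / 2) (hx : x ∈ Icc (0 : ℝ) 1.5) :
    -3 ≤ (Q.nu x).re ∧ ‖Q.nu x‖ ≤ 5 := by
  have ha : 0 ≤ aa m := by unfold aa; positivity
  have ha' := hG.a_le
  have hb := hG.box.2
  simp only [βlo, βhi, mem_Icc] at hb
  have hre : (Q.nu x).re = x + aa m - 5 / 2 := by simp [Prof.nu, nu0]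
  have him : (Q.nu x).im = -Q.β := by simp [Prof.nu, nu0]
  refine ⟨by rw [hre]; linarith [hx.1], (Complex.norm_le_abs_re_add_abs_im _).trans ?_⟩
  rw [hre, him]
  have h1 : |x + aa m - 5 / 2| ≤ 3 := abs_le.2 ⟨by linarith [hx.1], by linarith [hx.2]⟩
  have h2 : |-Q.β| ≤ 1 := abs_le.2 ⟨by linarith [hb.2], by linarith [hb.1]⟩
  linarith

theorem cnear_Lam_conj (e : ℝ → ℂ) (X : ℝ) : Lam (fun Y => conj (e Y)) X = conj (Lam e X) := by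
  have h : deriv (fun Y => conj (e Y)) X = conj (deriv e X) := deriv.star
  simp [Lam, h]

theorem cnear_scale {q : ℂ} (h : |‖q‖ - 1| ≤ 1 / 2) (u : ℂ × ℂ) :
    ‖u‖ ≤ 2 * ‖q⁻¹ • u‖ ∧ ‖q⁻¹ • u‖ ≤ 2 * ‖u‖ ∧ ‖q⁻¹‖ ≤ 2 := by
  rw [abs_le] at h
  have h0 : 0 < ‖q‖ := by linarith
  have h1 : ‖q⁻¹‖ ≤ 2 := by rw [norm_inv, inv_le_comm₀ h0 (by norm_num)]; linarith
  have h2 : 1 / 2 ≤ ‖q⁻¹‖ := by rw [norm_inv, le_inv_comm₀ (by norm_num) h0]; linarith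
  rw [norm_smul]
  exact ⟨by nlinarith [norm_nonneg u], by nlinarith [norm_nonneg u], h1⟩

theorem cnear_dot_smul (r d : ℂ × ℂ) (s : ℂ) : dotR r (s • d) = s * dotR r d := by
  simp only [dotR, Prod.smul_fst, Prod.smul_snd, smul_eq_mul]; ring

theorem cnear_hom {K ε R : ℝ} {e : ℝ → ℂ} {X : ℝ} (hl : l ≤ 1) (he : ‖dat e X‖ ≤ 10)
    (hε : 0 ≤ ε) (h : R ≤ K * ε * (l + |(0 : ℝ)| + 1) ^ 4 * ((l + √|(0 : ℝ)| + 1) *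
      (‖e X‖ + ‖conj (e X)‖) + (‖Lam e X‖ + ‖Lam (fun Y => conj (e Y)) X‖))) :
    R ≤ 1760 * |K| * ε := by
  have h1 : ‖e X‖ ≤ 10 := (norm_fst_le (dat e X)).trans he
  have h2 : ‖Lam e X + 5 / 2 * e X‖ ≤ 10 := (norm_snd_le (dat e X)).trans he
  have h3 : ‖Lam e X‖ ≤ 35 := by
    have := norm_sub_le (Lam e X + 5 / 2 * e X) (5 / 2 * e X)
    rw [add_sub_cancel_right, norm_mul, show ‖(5 / 2 : ℂ)‖ = 5 / 2 by norm_num] at this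
    linarith
  rw [cnear_Lam_conj, Complex.norm_conj, Complex.norm_conj, abs_zero, Real.sqrt_zero, add_zero] at h
  have hl' : (l : ℝ) + 1 ≤ 2 := by
    have : (l : ℝ) ≤ 1 := by exact_mod_cast hl
    linarith
  have h4 : ((l : ℝ) + 1) ^ 4 ≤ 16 := by
    have := pow_le_pow_left₀ (by positivity) hl' 4
    linarith
  have h5 : ((l : ℝ) + 1) * (‖e X‖ + ‖e X‖) + (‖Lam e X‖ + ‖Lam e X‖) ≤ 110 := by
    have := mul_le_mul hl' (show ‖e X‖ + ‖e X‖ ≤ 20 by linarith) (by positivity) (by norm_num)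
    linarith
  refine h.trans ?_
  calc _ ≤ |K| * ε * 16 * 110 := by gcongr; exact le_abs_self K
    _ = _ := by ring

theorem cnear_gen {K ε τ t M : ℝ} {q κ : ℂ} {r d d' e : ℂ × ℂ} (hq : |‖q‖ - 1| ≤ 1 / 2)
    (hτ : 0 < τ) (hε0 : 0 ≤ ε) (hε : ε ≤ τ ^ 2) (ht0 : 0 ≤ t) (ht : t ≤ τ) (he : ‖e‖ ≤ 10)
    (hM : 60 * |K| ≤ M)
    (k : ‖dotR r ((τ : ℂ) • d - κ • e)‖ + ‖dotR r ((τ : ℂ) • d' - conj κ • e)‖ ≤
      K * (ε + τ * (t + τ)) * (‖d‖ + ‖d'‖ + ‖κ‖ * ‖e‖)) :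
    ‖dotR r ((τ : ℂ) • q⁻¹ • d - κ • q⁻¹ • e)‖ + ‖dotR r ((τ : ℂ) • q⁻¹ • d' - conj κ • q⁻¹ • e)‖ ≤
      M * τ ^ 2 * (‖q⁻¹ • d‖ + ‖q⁻¹ • d'‖ + ‖κ‖) := by
  obtain ⟨d1, -, d3⟩ := cnear_scale hq d
  obtain ⟨d4, -, -⟩ := cnear_scale hq d'
  rw [smul_comm (τ : ℂ), smul_comm κ, smul_comm (τ : ℂ), smul_comm (conj κ), ← smul_sub,
    ← smul_sub, cnear_dot_smul, cnear_dot_smul, norm_mul, norm_mul, ← mul_add]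
  refine (mul_le_mul d3 k (by positivity) (by norm_num)).trans ?_
  have k1 : ε + τ * (t + τ) ≤ 3 * τ ^ 2 := by nlinarith
  have k2 := mul_le_mul_of_nonneg_left he (norm_nonneg κ)
  calc _ ≤ 2 * (|K| * (3 * τ ^ 2) * (10 * (‖q⁻¹ • d‖ + ‖q⁻¹ • d'‖ + ‖κ‖))) := by
        gcongr
        · exact le_abs_self K
        · linarith [norm_nonneg (q⁻¹ • d), norm_nonneg (q⁻¹ • d')]
    _ = 60 * |K| * τ ^ 2 * (‖q⁻¹ • d‖ + ‖q⁻¹ • d'‖ + ‖κ‖) := by ring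
    _ ≤ _ := by gcongr

theorem cnear_hdet {c0 τ a M D : ℝ} (hc : 0 < c0) (hτ : 0 < τ) (ha : 0 ≤ a) (hM : 2 / c0 ≤ M)
    (k : c0 * (τ + a) - c0 * τ / 2 ≤ D) : τ ≤ M * D := by
  have k1 : c0 * τ / 2 ≤ D := le_trans (by nlinarith) k
  calc τ = 2 / c0 * (c0 * τ / 2) := by field_simp
    _ ≤ _ := mul_le_mul hM k1 (by positivity) (le_trans (by positivity) hM)

theorem cnear_sq {K ε τ : ℝ} (hK : 0 ≤ K) (h : ε ≤ ((τ ^ 2 / (20 * K + 1)) ^ 2) ^ 2) :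
    K * √√ε * 20 ≤ τ ^ 2 := by
  have k : √√ε ≤ τ ^ 2 / (20 * K + 1) :=
    Real.sqrt_le_iff.2 ⟨by positivity, Real.sqrt_le_iff.2 ⟨by positivity, h⟩⟩
  rw [le_div_iff₀ (by positivity)] at k
  nlinarith [Real.sqrt_nonneg √ε]

theorem cnear_bc {K s τ b : ℝ} {q κ : ℂ} {d d' : ℂ × ℂ} (hq : |‖q‖ - 1| ≤ 1 / 2) (hK : 0 ≤ K * s)
    (h : K * s * 20 ≤ τ ^ 2) (k : b ≤ K * s * (‖d‖ + ‖d'‖ + ‖κ‖)) :
    b ≤ τ ^ 2 * (‖q⁻¹ • d‖ + ‖q⁻¹ • d'‖ + ‖κ‖) := by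
  obtain ⟨d1, -, -⟩ := cnear_scale hq d
  obtain ⟨d4, -, -⟩ := cnear_scale hq d'
  refine k.trans (le_trans ?_ (mul_le_mul_of_nonneg_right h (by positivity)))
  rw [mul_assoc _ 20]
  exact mul_le_mul_of_nonneg_left (by
    linarith [norm_nonneg (q⁻¹ • d), norm_nonneg (q⁻¹ • d'), norm_nonneg κ]) hK

theorem cnear_consts (R Lp K : ℝ) {c0 δ0 : ℝ} (hc : 0 < c0) (hδ : 0 < δ0) : ∃ M τ : ℝ, 1 ≤ M ∧
    R ≤ M ∧ Lp ≤ M ∧ 60 * |K| ≤ M ∧ 2 / c0 ≤ M ∧ 0 < τ ∧ 10 ^ 11 * M ^ 6 * τ ≤ 1 ∧ τ ≤ δ0 / 2 := by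
  obtain ⟨M, hM⟩ : ∃ M, M = 1 + |R| + |Lp| + 60 * |K| + 2 / c0 := ⟨_, rfl⟩
  have a1 := abs_nonneg R
  have a2 := abs_nonneg Lp
  have a3 := abs_nonneg K
  have a4 : 0 < 2 / c0 := by positivity
  have hM1 : 1 ≤ M := by linarith
  obtain ⟨τ, hτ, t1, t2⟩ := cnear_min (a := 1 / (10 ^ 11 * M ^ 6)) (b := δ0 / 2) (by positivity)
    (by positivity)
  rw [le_div_iff₀ (by positivity)] at t1
  exact ⟨M, τ, hM1, by linarith [le_abs_self R], by linarith [le_abs_self Lp], by linarith,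
    by linarith, hτ, by linarith, t2⟩

end Vale.Agent.P139
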