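import Vale.Agent.P139.C.BC
import Vale.Agent.P139.C.Lin
import Vale.Agent.P139.C.NearB

/-! P139 task C/Near (PROOF.md section C). Compact regime near a symmetry eigenvalue. Subtract `α e` (`c_sub`) so that the reduced datum `x_v = (y, p - ℓ y)` of `f` at `X0` is orthogonal to
`x_e`; new source constant `κ`. `S = ‖d_v‖ + ‖d'_v‖ + ‖κ‖`. For small fixed `τ`: `ext_gen`, `c_bc` (for `v` and for `e`), `c_cramer` and
`‖Det (z + a + τ)‖ ≥ c τ / 2` (`c_detq`, `c_detz`) give `‖τ d_v - κ d_e‖ ≤ C (δ + τ) S`; orthogonality gives `‖κ‖ ≤ C (δ + τ) S`. Then (`ext_gen`, `ext_hom` for `e`, `row_lip`)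
`row(z) d_v` and `row(z) d_e` are small; the 2x2 matrix with rows `(r.1 + ℓ r.2, r.2)` and `(-conj (r'.1 + ℓ r'.2), conj r'.2)` at `z + a` has a row of norm `≥ c'`
(otherwise `‖Det (z+a+τ)‖ ≤ C τ c' + C τ² + small`), `c_orth` gives `‖x_v‖ ≤ small S`, `c_bc` bounds `d'_v`. So `S = 0`; `c_uniq`.
-/

noncomputable section

open MeasureTheory Filter Topology Set Complex
open scoped ComplexConjugate

namespace Vale.Agent.P139

variable {c : Co} {L Y : ℝ} {lam : ℂ} {u u1 v η η1 ψ ψ1 sη sψ f g ef eg : ℝ → ℂ} {m l : ℕ}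
  {Q : Prof m}

/-- The normalised case: the reduced datum of `f` is orthogonal to the one of `e`. -/
theorem cnear_orth (C : ℝ) (hC : 0 < C) : ∃ δ ε0 : ℝ, 0 < δ ∧ 0 < ε0 ∧ ε0 ≤ 1 / 1000 ∧
    ∀ (m : ℕ) (Q : Prof m)
    (X0 ε : ℝ), ε ∈ Ioc 0 ε0 → Q.Good X0 ε C → ∀ (l : ℕ) (lam z κ : ℂ) (f g e : ℝ → ℂ),
      Q.IsMode l z e → 0 ≤ lam.re → ‖lam - z‖ ≤ δ →
      Q.RSol l lam f g (fun X => κ * e X) (fun X => κ * conj (e X)) →
      (xv ((l + 5) / 2) (dat f X0)).1 * conj (xv ((l + 5) / 2) (dat e X0)).1 +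
        (xv ((l + 5) / 2) (dat f X0)).2 * conj (xv ((l + 5) / 2) (dat e X0)).2 = 0 →
      dat f X0 = 0 ∧ dat (fun Y => conj (g Y)) X0 = 0 ∧ κ = 0 := by
  obtain ⟨δ0, c0, hδ0, hδ8, hc0, hq, -⟩ := c_detq
  obtain ⟨R, hR⟩ := c_row_bdd 5 1
  obtain ⟨Lp, hLp⟩ := cnear_lip
  obtain ⟨K1, ε1, hε1, h1⟩ := ext_hom C 1
  obtain ⟨K2, ε2, hε2, h2⟩ := ext_gen C
  obtain ⟨K3, ε3, hε3, hK3, h3⟩ := c_bc C 2 hC 1
  obtain ⟨M, τ, hM1, hMR, hML, hMK, hMc, hτ, t1, t2⟩ := cnear_consts R Lp K2 hc0 hδ0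
  obtain ⟨η', hη', hq⟩ := hq (c0 * τ / 2) (by positivity)
  obtain ⟨ε4, hε4, h4⟩ := c_detz C hC hη'
  obtain ⟨ε0, p0, u1, u2, u3, u4, u5, u6, u7, u8, u9⟩ := cnear_min9 hε1 hε2 hε3 hε4
    (a5 := 1 / 1000) (a6 := τ ^ 2) (a7 := ((τ ^ 2 / (20 * K3 + 1)) ^ 2) ^ 2)
    (a8 := τ ^ 2 / (3520 * |K1| + 1)) (by norm_num) (by positivity) (by positivity) (by positivity)
    (half_pos hδ0)
  refine ⟨τ, ε0, hτ, p0, u5, fun m Q X0 ε hε hG l lam z κ f g e he hre hz hs ho => ?_⟩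
  obtain ⟨hε0, hε⟩ := hε
  obtain ⟨hl, x, hx, rfl⟩ := cnear_sym he.sym
  have hτ8 : τ ≤ 1 / 8 := t2.trans (by linarith only [hδ8, hδ0])
  have hε2 : ε ≤ 1 / 2 := (hε.trans u5).trans (by norm_num)
  have hX : X0 ∈ Icc (2 : ℝ) 4 := by
    have := hG.box.1
    simp only [Xlo, Xhi, mem_Icc] at this
    constructor <;> linarith only [this.1, this.2]
  have hq0 : |‖Q.q X0‖ - 1| ≤ 1 / 2 :=
    (hG.near X0 ⟨by linarith only [hX.1], le_rfl⟩).1.trans hε2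
  have hl' : (l : ℝ) ≤ 1 := by exact_mod_cast hl
  have hℓ : ((l : ℝ) + 5) / 2 ∈ Icc (0 : ℝ) 3 := ⟨by positivity, by linarith only [hl']⟩
  obtain ⟨m1, m2, -⟩ := c_mode_size hG ⟨hε0, hε.trans u5⟩ he
  have n0 := cnear_nu (x := x) hG hε2 ⟨hx.1, by linarith only [hx.2]⟩
  have n1 := cnear_nu (x := x + τ) hG hε2
    ⟨by linarith only [hx.1, hτ], by linarith only [hx.2, hτ8]⟩
  have r0 := (hR l hl _ n0.1 n0.2 X0 hX).trans hMR
  have r1 := (hR l hl _ n1.1 n1.2 X0 hX).trans hMR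
  have lp : ‖row (Q.nu (x + τ : ℝ)) ((l + 5) / 2) X0 - row (Q.nu x) ((l + 5) / 2) X0‖ ≤ M * τ := by
    refine (hLp l hl _ _ n1.1 n0.1 n1.2 n0.2 X0 hX).trans ?_
    rw [show Q.nu (x + τ : ℝ) - Q.nu x = τ by simp [Prof.nu], Complex.norm_real,
      Real.norm_of_nonneg hτ.le]
    exact mul_le_mul_of_nonneg_right hML hτ.le
  have ha : 0 ≤ aa m := by unfold aa; positivity
  have hdet : τ ≤ M * ‖det2 ((l + 5) / 2) (row (Q.nu (x + τ : ℝ)) ((l + 5) / 2) X0)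
      (row (Q.nu (x + τ : ℝ)) ((l + 5) / 2) X0)‖ := by
    have hn : ‖((x + τ + aa m : ℝ) : ℂ) - x‖ = τ + aa m := by
      rw [← Complex.ofReal_sub, Complex.norm_real,
        Real.norm_of_nonneg (by linarith only [hτ, ha])]
      ring
    have k := hq X0 Q.β hG.box l x (x + τ + aa m : ℝ) he.sym
      (by rw [ofReal_re]; linarith only [hx.1, hτ, ha])
      (by rw [hn]; linarith only [hG.a_le, hε, u9, t2])
      (h4 m Q X0 ε ⟨hε0, hε.trans u4⟩ hG l x he.sym)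
    rw [hn, c_Det, conj_ofReal, show ((x + τ + aa m : ℝ) : ℂ) - I * Q.β - 5 / 2 = Q.nu (x + τ : ℝ) by
      simp only [Prof.nu, nu0]; push_cast; ring] at k
    exact cnear_hdet hc0 hτ ha hMc k
  have hsq := cnear_sq hK3 (hε.trans u7)
  have hlam : ‖lam‖ ≤ 2 := by
    have := norm_add_le (lam - x) x
    rw [sub_add_cancel, Complex.norm_real, Real.norm_of_nonneg hx.1] at this
    linarith only [this, hx.2, hz, hτ8]
  obtain ⟨d1, -, d3⟩ := cnear_scale hq0 (dat f X0)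
  obtain ⟨d4, -, -⟩ := cnear_scale hq0 (dat (fun Y => conj (g Y)) X0)
  obtain ⟨d6, d7, -⟩ := cnear_scale hq0 (dat e X0)
  have key := cnear_abs (κ := κ) (d := (Q.q X0)⁻¹ • dat f X0)
    (d' := (Q.q X0)⁻¹ • dat (fun Y => conj (g Y)) X0) (e := (Q.q X0)⁻¹ • dat e X0) hM1 hτ t1
    hℓ rfl r1 r1 r0 r0 lp lp hdet (by linarith only [m1, d6]) (by linarith only [m2, d7])
    ?_ ?_ ?_ ?_ ?_
  · have z1 := norm_nonneg ((Q.q X0)⁻¹ • dat f X0)
    have z2 := norm_nonneg ((Q.q X0)⁻¹ • dat (fun Y => conj (g Y)) X0)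
    have z3 := norm_nonneg κ
    refine ⟨norm_le_zero_iff.1 ?_, norm_le_zero_iff.1 ?_, norm_le_zero_iff.1 ?_⟩ <;>
      linarith only [key, z1, z2, z3, d1, d4]
  · simp only [xv, Prod.smul_fst, Prod.smul_snd, smul_eq_mul, map_sub, map_mul] at ho ⊢
    linear_combination (Q.q X0)⁻¹ * conj (Q.q X0)⁻¹ * ho
  · have k := h2 m Q X0 ε hε0 (hε.trans u2) hG l x lam κ τ e f g he.sym hre (hz.trans hτ8)
      ⟨hτ.le, hτ8⟩ (c_mode he) hs
    rw [conj_ofReal, ← ofReal_add] at k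
    exact cnear_gen hq0 hτ hε0.le (hε.trans u6) (norm_nonneg _) hz m2 hMK k
  · exact cnear_bc hq0 (by positivity) hsq
      (h3 m Q X0 ε ⟨hε0, hε.trans u3⟩ hG l lam κ x f g e hl hlam (Or.inr he) hs)
  · have k := h3 m Q X0 ε ⟨hε0, hε.trans u3⟩ hG l x 0 x e (fun Y => conj (e Y)) e hl
      (by rw [Complex.norm_real, Real.norm_of_nonneg hx.1]; linarith only [hx.2]) (Or.inl rfl)
      (c_congr (c_mode he) (by simp))
    simp only [conj_conj, norm_zero] at k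
    exact k.trans (le_trans (mul_le_mul_of_nonneg_left (by linarith only [m2]) (by positivity)) hsq)
  · have k := h1 m Q X0 ε hε0 (hε.trans u1) hG l x e (fun Y => conj (e Y)) (by simpa using hx)
      (c_mode he) X0 ⟨le_rfl, by linarith only⟩
    simp only [conj_conj, conj_ofReal, ofReal_im] at k
    have k1 := cnear_hom hl m2 hε0.le k
    rw [cnear_dot_smul, norm_mul, ← mul_add]
    refine (mul_le_mul d3 k1 (by positivity) (by norm_num)).trans ?_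
    have k2 := hε.trans u8
    rw [le_div_iff₀ (by positivity)] at k2
    linarith only [k2, hε0]

theorem c_near (C : ℝ) (hC : 0 < C) : ∃ δ ε0 : ℝ, 0 < δ ∧ 0 < ε0 ∧ ∀ (m : ℕ) (Q : Prof m)
    (X0 ε : ℝ), ε ∈ Ioc 0 ε0 → Q.Good X0 ε C → ∀ (l : ℕ) (lam z κ : ℂ) (f g e : ℝ → ℂ),
      Q.IsMode l z e → 0 ≤ lam.re → ‖lam - z‖ ≤ δ →
      Q.RSol l lam f g (fun X => κ * e X) (fun X => κ * conj (e X)) →
        ∃ α : ℂ, ∀ X, 0 < X → f X = α * e X ∧ g X = α * conj (e X) := by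
  obtain ⟨δ, ε0, hδ, hε0, h0, h⟩ := cnear_orth C hC
  refine ⟨δ, ε0, hδ, hε0, fun m Q X0 ε hε hG l lam z κ f g e he hre hz hs => ?_⟩
  have hX : 0 < X0 := by
    have := hG.box.1.1
    simp only [Xlo] at this
    linarith
  obtain ⟨m1, -, -⟩ := c_mode_size hG ⟨hε.1, hε.2.trans h0⟩ he
  obtain ⟨x, hx⟩ : ∃ x, x = xv ((l + 5) / 2) (dat f X0) := ⟨_, rfl⟩
  obtain ⟨y, hy⟩ : ∃ y, y = xv ((l + 5) / 2) (dat e X0) := ⟨_, rfl⟩
  have hl : (l : ℝ) ≤ 1 := by exact_mod_cast (cnear_sym he.sym).1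
  have hy0 : y.1 * conj y.1 + y.2 * conj y.2 ≠ 0 := by
    rw [Complex.mul_conj', Complex.mul_conj']
    intro h0
    have h1 : ‖y.1‖ ^ 2 + ‖y.2‖ ^ 2 = 0 := by exact_mod_cast h0
    have h2 := cnear_le_xv (ℓ := (l + 5) / 2) ⟨by positivity, by linarith⟩ (dat e X0)
    rw [← hy, Prod.norm_def y] at h2
    have h3 : ‖y.1‖ = 0 := by nlinarith [sq_nonneg ‖y.1‖, sq_nonneg ‖y.2‖]
    have h4 : ‖y.2‖ = 0 := by nlinarith [sq_nonneg ‖y.1‖, sq_nonneg ‖y.2‖]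
    rw [h3, h4, max_self] at h2
    linarith
  obtain ⟨α, hα⟩ : ∃ α, α = (x.1 * conj y.1 + x.2 * conj y.2) /
    (y.1 * conj y.1 + y.2 * conj y.2) := ⟨_, rfl⟩
  have hm := c_mode he
  have hv : Q.RSol l lam (fun X => f X - α * e X) (fun X => g X - α * conj (e X))
      (fun X => (κ - α * (lam - z)) * e X) fun X => (κ - α * (lam - z)) * conj (e X) :=
    c_congr (c_sub hs hm α) fun X _ => ⟨by ring, by ring⟩
  have df : DifferentiableAt ℝ f X0 :=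
    (hs.sf.contDiffAt (Ioi_mem_nhds hX)).differentiableAt (by norm_num)
  have de : DifferentiableAt ℝ e X0 :=
    (hm.sf.contDiffAt (Ioi_mem_nhds hX)).differentiableAt (by norm_num)
  have hd : deriv (fun X => f X - α * e X) X0 = deriv f X0 - α * deriv e X0 :=
    (df.hasDerivAt.sub (de.hasDerivAt.const_mul α)).deriv
  obtain ⟨k1, k2, k3⟩ := h m Q X0 ε hε hG l lam z _ _ _ e he hre hz hv (by
    have e1 : xv ((l + 5) / 2) (dat (fun X => f X - α * e X) X0) = x - α • y := by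
      rw [hx, hy]
      ext <;> simp only [xv, dat, Lam, hd, Prod.fst_sub, Prod.snd_sub, Prod.smul_fst,
        Prod.smul_snd, smul_eq_mul]
      ring
    rw [e1, ← hy]
    simp only [Prod.fst_sub, Prod.snd_sub, Prod.smul_fst, Prod.smul_snd, smul_eq_mul]
    rw [eq_div_iff hy0] at hα
    linear_combination -hα)
  have hX' : (X0 : ℂ) ≠ 0 := by exact_mod_cast hX.ne'
  have a1 : f X0 - α * e X0 = 0 := congrArg Prod.fst k1
  have a2 : conj (g X0 - α * conj (e X0)) = 0 := congrArg Prod.fst k2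
  have a3 : Lam (fun X => f X - α * e X) X0 + 5 / 2 * (f X0 - α * e X0) = 0 := congrArg Prod.snd k1
  have a4 : Lam (fun Y => conj (g Y - α * conj (e Y))) X0 +
    5 / 2 * conj (g X0 - α * conj (e X0)) = 0 := congrArg Prod.snd k2
  rw [a1, mul_zero, add_zero, Lam, mul_eq_zero] at a3
  rw [a2, mul_zero, add_zero, cnear_Lam_conj (fun Y => g Y - α * conj (e Y)), map_eq_zero, Lam,
    mul_eq_zero] at a4
  have hu := c_uniq (c_congr (ef' := 0) (eg' := 0) hv (by simp [k3])) hX a1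
    ((map_eq_zero _).1 a2) (a3.resolve_left hX') (a4.resolve_left hX')
  exact ⟨α, fun X hX => ⟨sub_eq_zero.1 (hu X hX).1, sub_eq_zero.1 (hu X hX).2⟩⟩

end Vale.Agent.P139
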