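import Vale.Agent.P139.C.Big
import Vale.Agent.P139.C.Away
import Vale.Agent.P139.C.Near

/-! P139 task C/Main (PROOF.md section C). Assembly. Remove the source modes whose eigenvalue differs from `λ` by `c_sub` with `κ = c / (λ - z)`; if `λ` is within `δ` of a symmetry eigenvalue
`z` of `l` use `c_near` (the remaining source is a multiple of that mode, possibly zero), otherwise the problem is homogeneous: `c_big` or `c_away`.
-/

noncomputable section

open MeasureTheory Filter Topology Set Complex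
open scoped ComplexConjugate

namespace Vale.Agent.P139

variable {c : Co} {L Y : ℝ} {lam : ℂ} {u u1 v η η1 ψ ψ1 sη sψ f g ef eg : ℝ → ℂ} {m l : ℕ}
  {Q : Prof m}

theorem cmain_rm {z κ : ℂ} {e r r' : ℝ → ℂ} (he : Q.IsMode l z e) (hz : lam ≠ z)
    (h : Q.RSol l lam f g ef eg)
    (hs : ∀ X, 0 < X → ef X = κ * e X + r X ∧ eg X = κ * conj (e X) + r' X) :
    Q.RSol l lam (fun X => f X - κ / (lam - z) * e X)
      (fun X => g X - κ / (lam - z) * conj (e X)) r r' := by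
  refine c_congr (c_sub h (c_mode he) _) fun X hX => ?_
  rw [(hs X hX).1, (hs X hX).2, div_mul_cancel₀ _ (sub_ne_zero.2 hz)]
  exact ⟨by ring, by ring⟩

theorem c_main (C : ℝ) (hC : 0 < C) : ∃ ε0 : ℝ, 0 < ε0 ∧
    ∀ (m : ℕ) (Q : Prof m) (X0 : ℝ), Q.Good X0 ε0 C → Q.RMS := by
  obtain ⟨δ0, ε1, hδ0, hε1, hn⟩ := c_near C hC
  obtain ⟨Λ, ε2, l0, hε2, hb⟩ := c_big C hC
  obtain ⟨δ, hδ, d1, d2⟩ := cnear_min hδ0 (show (0 : ℝ) < 1 / 4 by norm_num)
  obtain ⟨ε3, hε3, ha⟩ := c_away C Λ hC l0 hδ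
  refine ⟨min ε1 (min ε2 ε3), by positivity, fun m Q X0 hG l lam f g ef eg hre hE h => ?_⟩
  have h0 : 0 < min ε1 (min ε2 ε3) := by positivity
  have near := fun z κ f g e he (hz : ‖lam - z‖ < δ) =>
    hn m Q X0 _ ⟨h0, min_le_left _ _⟩ hG l lam z κ f g e he hre (hz.le.trans d1)
  have hom : ∀ f g : ℝ → ℂ, Q.RSol l lam f g 0 0 → (∀ z, Sym l z → ¬‖lam - z‖ < δ) →
      ∀ X, 0 < X → f X = 0 ∧ g X = 0 := by
    intro f g h hz
    by_cases hc : l0 < l ∨ Λ < ‖lam‖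
    · exact hb m Q X0 _ ⟨h0, (min_le_right _ _).trans (min_le_left _ _)⟩ hG l lam f g h hre hc
    · rw [not_or, not_lt, not_lt] at hc
      exact ha m Q X0 _ ⟨h0, (min_le_right _ _).trans (min_le_right _ _)⟩ hG l lam f g h hre hc.1
        hc.2 fun z h => not_lt.1 (hz z h)
  have ne : ∀ z : ℂ, ¬‖lam - z‖ < δ → lam ≠ z := fun z hz h => hz (by rw [h]; simpa using hδ)
  obtain ⟨c0, c1, c2, p1, p2, hs⟩ := hE
  rcases l with _ | _ | l
  · obtain rfl := p2 (by norm_num)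
    have mP : Q.IsMode 0 0 Q.eP := Or.inl ⟨rfl, rfl, rfl⟩
    have mT : Q.IsMode 0 1 Q.eT := Or.inr (Or.inl ⟨rfl, rfl, rfl⟩)
    by_cases z0 : ‖lam - 0‖ < δ
    · have z1 : lam ≠ 1 := fun h => by rw [h] at z0; norm_num at z0; linarith
      obtain ⟨α, hα⟩ := near 0 c0 _ _ _ mP z0 (cmain_rm (κ := c1) mT z1 h fun X hX => by
        rw [(hs X hX).1, (hs X hX).2]; exact ⟨by ring, by ring⟩)
      exact ⟨α, c1 / (lam - 1), 0, by simp, by simp, fun X hX =>
        ⟨by linear_combination (hα X hX).1, by linear_combination (hα X hX).2⟩⟩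
    have h1 := cmain_rm (κ := c0) (r := fun X => c1 * Q.eT X) (r' := fun X => c1 * conj (Q.eT X))
      mP (ne 0 z0) h fun X hX => by rw [(hs X hX).1, (hs X hX).2]; exact ⟨by ring, by ring⟩
    by_cases z1 : ‖lam - 1‖ < δ
    · obtain ⟨α, hα⟩ := near 1 c1 _ _ _ mT z1 h1
      exact ⟨c0 / (lam - 0), α, 0, by simp, by simp, fun X hX =>
        ⟨by linear_combination (hα X hX).1, by linear_combination (hα X hX).2⟩⟩
    have h2 := hom _ _ (cmain_rm (κ := c1) (r := 0) (r' := 0) mT (ne 1 z1) h1 (by simp)) (by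
      rintro z (⟨-, rfl⟩ | ⟨-, rfl⟩ | ⟨h, -⟩)
      exacts [z0, z1, absurd h (by norm_num)])
    exact ⟨c0 / (lam - 0), c1 / (lam - 1), 0, by simp, by simp, fun X hX =>
      ⟨by linear_combination (h2 X hX).1, by linear_combination (h2 X hX).2⟩⟩
  · obtain ⟨rfl, rfl⟩ := p1 (by norm_num)
    have mX : Q.IsMode (0 + 1) (1 / 2) Q.eX := Or.inr (Or.inr ⟨rfl, rfl, rfl⟩)
    by_cases z0 : ‖lam - 1 / 2‖ < δ
    · obtain ⟨α, hα⟩ := near _ c2 _ _ _ mX z0 (c_congr h fun X hX => by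
        rw [(hs X hX).1, (hs X hX).2]; exact ⟨by ring, by ring⟩)
      exact ⟨0, 0, α, by simp, by simp, fun X hX =>
        ⟨by linear_combination (hα X hX).1, by linear_combination (hα X hX).2⟩⟩
    have h2 := hom _ _ (cmain_rm (κ := c2) (r := 0) (r' := 0) mX (ne _ z0) h fun X hX => by
      rw [(hs X hX).1, (hs X hX).2]; simp) (by
      rintro z (⟨h, -⟩ | ⟨h, -⟩ | ⟨-, rfl⟩)
      exacts [absurd h (by norm_num), absurd h (by norm_num), z0])
    exact ⟨0, 0, c2 / (lam - 1 / 2), by simp, by simp, fun X hX =>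
      ⟨by linear_combination (h2 X hX).1, by linear_combination (h2 X hX).2⟩⟩
  · obtain ⟨rfl, rfl⟩ := p1 (by omega)
    obtain rfl := p2 (by omega)
    have h2 := hom f g (c_congr h fun X hX => by rw [(hs X hX).1, (hs X hX).2]; simp) (by
      rintro z (⟨h, -⟩ | ⟨h, -⟩ | ⟨h, -⟩) <;> omega)
    exact ⟨0, 0, 0, by simp, by simp, fun X hX => by simpa using h2 X hX⟩

end Vale.Agent.P139
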