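import Vale.Agent.P139.C.NearAux

/-! P139 task C/Near: the finite dimensional part. -/

noncomputable section

open MeasureTheory Filter Topology Set Complex
open scoped ComplexConjugate

namespace Vale.Agent.P139

theorem cnear_kap_bd {M τ ℓ : ℝ} (hM : 1 ≤ M) (hτ : 0 < τ) (h1 : τ ≤ 1) (hl : ℓ ∈ Icc (0 : ℝ) 3)
    {r r' d d' e : ℂ × ℂ} {κ : ℂ} {S : ℝ} (hS : ‖κ‖ ≤ S) (n1 : ‖r‖ ≤ M) (n2 : ‖r'‖ ≤ M)
    (hdet : τ ≤ M * ‖det2 ℓ r r'‖) (e1 : 1 / 20 ≤ ‖e‖)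
    (ho : (xv ℓ d).1 * conj (xv ℓ e).1 + (xv ℓ d).2 * conj (xv ℓ e).2 = 0)
    (hg : ‖dotR r ((τ : ℂ) • d - κ • e)‖ + ‖dotR r' ((τ : ℂ) • d' - conj κ • e)‖ ≤ M * τ ^ 2 * S)
    (b1 : bcd ℓ d d' ≤ τ ^ 2 * S) (b2 : bcd ℓ e e ≤ τ ^ 2) : ‖κ‖ ≤ 2500000 * M ^ 3 * τ * S := by
  have hS0 : 0 ≤ S := (norm_nonneg _).trans hS
  have hb : bcd ℓ ((τ : ℂ) • d - κ • e) ((τ : ℂ) • d' - conj κ • e) ≤ 2 * (τ ^ 2 * S) := by
    refine (cnear_bcd_comb ℓ τ hτ.le κ d d' e).trans ?_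
    have k1 : τ * bcd ℓ d d' ≤ 1 * (τ ^ 2 * S) :=
      (mul_le_mul_of_nonneg_left b1 hτ.le).trans (mul_le_mul_of_nonneg_right h1 (by positivity))
    have k2 : ‖κ‖ * bcd ℓ e e ≤ S * τ ^ 2 :=
      (mul_le_mul_of_nonneg_left b2 (norm_nonneg _)).trans
        (mul_le_mul_of_nonneg_right hS (by positivity))
    linarith
  have hc := c_cramer (d := (τ : ℂ) • d - κ • e) (d' := (τ : ℂ) • d' - conj κ • e) hl.1 n1 n2
  have h64 : 20 * (1 + ℓ) ^ 3 ≤ 1280 := by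
    have := pow_le_pow_left₀ (by linarith [hl.1]) (show 1 + ℓ ≤ 4 by linarith [hl.2]) 3
    linarith
  set D := ‖(τ : ℂ) • d - κ • e‖ with hD
  have hD0 : 0 ≤ D := norm_nonneg _
  have hc2 : ‖det2 ℓ r r'‖ * D ≤ 1280 * (3 * M ^ 2 * (τ ^ 2 * S)) := by
    refine le_trans (mul_le_mul_of_nonneg_left (le_add_of_nonneg_right (norm_nonneg _))
      (norm_nonneg _)) (hc.trans (mul_le_mul h64 ?_ ?_ (by norm_num)))
    · have k1 := mul_le_mul_of_nonneg_left hg (show 0 ≤ M by linarith)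
      have k2 := mul_le_mul_of_nonneg_left hb (sq_nonneg M)
      linarith
    · have : 0 ≤ bcd ℓ ((τ : ℂ) • d - κ • e) ((τ : ℂ) • d' - conj κ • e) := by
        unfold bcd; positivity
      positivity
  have hD1 : D ≤ 3840 * M ^ 3 * τ * S := by
    have k1 := mul_le_mul_of_nonneg_right hdet hD0
    have k2 := mul_le_mul_of_nonneg_left hc2 (show 0 ≤ M by linarith)
    refine le_of_mul_le_mul_left ?_ hτ
    nlinarith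
  have hk := cnear_kappa ho (τ : ℂ) κ
  have hx : (τ : ℂ) • xv ℓ d - κ • xv ℓ e = xv ℓ ((τ : ℂ) • d - κ • e) := by
    ext <;> simp only [xv, Prod.fst_sub, Prod.snd_sub, Prod.smul_fst, Prod.smul_snd, smul_eq_mul]
    ring
  rw [hx] at hk
  have k3 := cnear_xv_le hl ((τ : ℂ) • d - κ • e)
  have k4 := cnear_le_xv hl e
  have k5 : ‖κ‖ * (1 / 80) ≤ ‖κ‖ * ‖xv ℓ e‖ :=
    mul_le_mul_of_nonneg_left (by linarith) (norm_nonneg _)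
  have k6 : 0 ≤ M ^ 3 * τ * S := by positivity
  linarith

theorem cnear_dot_bd {M τ : ℝ} (hM : 1 ≤ M) (hτ : 0 < τ) (h1 : τ ≤ 1) {r r0 d e : ℂ × ℂ} {κ : ℂ}
    {S : ℝ} (hS : ‖d‖ ≤ S) (l1 : ‖r - r0‖ ≤ M * τ) (e2 : ‖e‖ ≤ 20)
    (hk : ‖κ‖ ≤ 2500000 * M ^ 3 * τ * S) (hg : ‖dotR r ((τ : ℂ) • d - κ • e)‖ ≤ M * τ ^ 2 * S)
    (b3 : ‖dotR r0 e‖ ≤ τ ^ 2) : ‖dotR r0 d‖ ≤ 103000000 * M ^ 4 * τ * S := by
  have hS0 : 0 ≤ S := (norm_nonneg _).trans hS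
  have k1 : ‖dotR r e‖ ≤ 41 * M * τ := by
    have := cnear_dot_sub r r0 e
    have := mul_le_mul l1 e2 (norm_nonneg _) (by positivity)
    nlinarith
  have k2 : (τ : ℂ) * dotR r d = dotR r ((τ : ℂ) • d - κ • e) + κ * dotR r e := by
    simp only [dotR, Prod.fst_sub, Prod.snd_sub, Prod.smul_fst, Prod.smul_snd, smul_eq_mul]
    ring
  have k3 : τ * ‖dotR r d‖ ≤ M * τ ^ 2 * S + 2500000 * M ^ 3 * τ * S * (41 * M * τ) := by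
    have h := norm_add_le (dotR r ((τ : ℂ) • d - κ • e)) (κ * dotR r e)
    rw [← k2, norm_mul, norm_mul, Complex.norm_real, Real.norm_of_nonneg hτ.le] at h
    have := mul_le_mul hk k1 (norm_nonneg _) (by positivity)
    linarith
  have k4 : ‖dotR r d‖ ≤ M * τ * S + 102500000 * M ^ 4 * τ * S := by
    refine le_of_mul_le_mul_left (k3.trans (le_of_eq ?_)) hτ
    ring
  have k5 := cnear_dot_sub r0 r d
  rw [norm_sub_rev] at k5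
  have k6 := mul_le_mul l1 hS (norm_nonneg _) (by positivity)
  have k7 : M * τ * S ≤ M ^ 4 * τ * S := by
    have : M ≤ M ^ 4 := le_self_pow₀ hM (by norm_num)
    gcongr
  have k8 : 0 ≤ M ^ 4 * τ * S := by positivity
  linarith

theorem cnear_row_bd {T : ℝ} {A x y : ℂ × ℂ} (ho : x.1 * conj y.1 + x.2 * conj y.2 = 0)
    (hy : 1 / 80 ≤ ‖y‖) {S t : ℝ} (hx : ‖x‖ ≤ S) (h1 : ‖dotR A x‖ ≤ T) (h2 : ‖dotR A y‖ ≤ t) :
    ‖A‖ * ‖x‖ ≤ 2 * T + 160 * t * S := by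
  have h := c_orth (R := A) ho
  have ht : 0 ≤ t := (norm_nonneg _).trans h2
  have hS : 0 ≤ S := (norm_nonneg _).trans hx
  have k1 := mul_le_mul_of_nonneg_right h1 (norm_nonneg y)
  have k2 := mul_le_mul h2 hx (norm_nonneg _) ht
  have k3 := mul_le_mul_of_nonneg_left hy (mul_nonneg ht hS)
  refine le_of_mul_le_mul_right ?_ (show 0 < ‖y‖ by linarith)
  nlinarith

theorem cnear_bcd_nonneg (ℓ : ℝ) (u u' : ℂ × ℂ) : 0 ≤ bcd ℓ u u' := by unfold bcd; positivity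

theorem cnear_det0 {M τ ℓ : ℝ} (hM : 1 ≤ M) (hl : ℓ ∈ Icc (0 : ℝ) 3) {r0 r0' e : ℂ × ℂ}
    (n3 : ‖r0‖ ≤ M) (n4 : ‖r0'‖ ≤ M) (e1 : 1 / 20 ≤ ‖e‖) (b2 : bcd ℓ e e ≤ τ ^ 2)
    (b3 : ‖dotR r0 e‖ + ‖dotR r0' e‖ ≤ τ ^ 2) : ‖det2 ℓ r0 r0'‖ ≤ 25600 * M ^ 2 * τ ^ 2 := by
  have hc := c_cramer (d := e) (d' := e) hl.1 n3 n4
  have h64 : 20 * (1 + ℓ) ^ 3 ≤ 1280 := by
    have := pow_le_pow_left₀ (by linarith [hl.1]) (show 1 + ℓ ≤ 4 by linarith [hl.2]) 3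
    linarith
  have k1 := mul_le_mul_of_nonneg_left b3 (show 0 ≤ M by linarith)
  have k2 := mul_le_mul_of_nonneg_left b2 (sq_nonneg M)
  have k3 : M * τ ^ 2 ≤ M ^ 2 * τ ^ 2 := by
    have : M ≤ M ^ 2 := le_self_pow₀ hM (by norm_num)
    gcongr
  have k4 := hc.trans (mul_le_mul h64 (show _ ≤ 2 * (M ^ 2 * τ ^ 2) by linarith)
    (by have := cnear_bcd_nonneg ℓ e e; positivity) (by norm_num))
  have k5 := mul_le_mul_of_nonneg_left (show 1 / 10 ≤ ‖e‖ + ‖e‖ by linarith)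
    (norm_nonneg (det2 ℓ r0 r0'))
  linarith

theorem cnear_real {M τ S x D D0 A B : ℝ} (hM : 1 ≤ M) (hτ : 0 < τ) (hS0 : 0 ≤ S) (hx0 : 0 ≤ x)
    (hx : x ≤ 4 * S) (hdet : τ ≤ M * D) (hd0 : D0 ≤ 25600 * M ^ 2 * τ ^ 2)
    (hd1 : D ≤ D0 + 8 * (M * τ) * (A + B) + 32 * (M * τ) ^ 2)
    (rA1 : A * x ≤ 2 * (103000000 * M ^ 4 * τ * S) + 160 * (M * τ ^ 2) * (4 * S))
    (rB1 : B * x ≤ 2 * (104000000 * M ^ 4 * τ * S) + 160 * (5 * M * τ ^ 2) * (4 * S))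
    (p2 : M * τ ^ 2 * S ≤ M ^ 4 * τ * S) : x ≤ 3321000000 * M ^ 6 * τ * S := by
  have q1 : (A + B) * x ≤ 415000000 * M ^ 4 * τ * S := by
    have : 0 ≤ M * τ ^ 2 * S := by positivity
    linarith
  have q2 : D * x ≤
      25632 * M ^ 2 * τ ^ 2 * (4 * S) + 8 * (M * τ) * (415000000 * M ^ 4 * τ * S) := by
    have k1 := mul_le_mul_of_nonneg_right hd1 hx0
    have k2 := mul_le_mul (show D0 + 32 * (M * τ) ^ 2 ≤ 25632 * M ^ 2 * τ ^ 2 by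
      linarith) hx hx0 (by positivity)
    have k3 := mul_le_mul_of_nonneg_left q1 (show 0 ≤ 8 * (M * τ) by positivity)
    linarith
  have k1 := mul_le_mul_of_nonneg_right hdet hx0
  have k2 := mul_le_mul_of_nonneg_left q2 (show 0 ≤ M by linarith)
  have k3 : M ^ 3 * τ ^ 2 * S ≤ M ^ 6 * τ ^ 2 * S := by
    have := pow_le_pow_right₀ hM (show 3 ≤ 6 by norm_num)
    gcongr
  have k4 : 0 ≤ M ^ 3 * τ ^ 2 * S := by positivity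
  refine le_of_mul_le_mul_left ?_ hτ
  linarith

theorem cnear_fin {M τ S x x' d d' k b : ℝ} (hM : 1 ≤ M) (hτ : 0 < τ)
    (hs : 10 ^ 11 * M ^ 6 * τ ≤ 1) (hS0 : 0 ≤ S) (hS : S = d + d' + k)
    (q3 : x ≤ 3321000000 * M ^ 6 * τ * S) (q4 : d ≤ 4 * x) (q5 : d' ≤ 4 * x') (q6 : x' ≤ x + b)
    (b1 : b ≤ τ ^ 2 * S) (hk : k ≤ 2500000 * M ^ 3 * τ * S) : S = 0 := by
  have hM1 : 1 ≤ M ^ 6 := one_le_pow₀ hM
  have h1 : τ ≤ 1 := by nlinarith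
  have q7 : M ^ 3 * τ * S ≤ M ^ 6 * τ * S := by
    have := pow_le_pow_right₀ hM (show 3 ≤ 6 by norm_num)
    gcongr
  have q8 : τ ^ 2 * S ≤ M ^ 6 * τ * S := by
    have : τ ^ 2 ≤ M ^ 6 * τ := by nlinarith
    gcongr
  have q9 := mul_le_mul_of_nonneg_right hs hS0
  have q10 : 0 ≤ M ^ 6 * τ * S := by positivity
  linarith

theorem cnear_abs {M τ ℓ : ℝ} (hM : 1 ≤ M) (hτ : 0 < τ) (hs : 10 ^ 11 * M ^ 6 * τ ≤ 1)
    (hl : ℓ ∈ Icc (0 : ℝ) 3) {r0 r0' r r' d d' e : ℂ × ℂ} {κ : ℂ} {S : ℝ}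
    (hS : S = ‖d‖ + ‖d'‖ + ‖κ‖) (n1 : ‖r‖ ≤ M) (n2 : ‖r'‖ ≤ M) (n3 : ‖r0‖ ≤ M) (n4 : ‖r0'‖ ≤ M)
    (l1 : ‖r - r0‖ ≤ M * τ) (l2 : ‖r' - r0'‖ ≤ M * τ) (hdet : τ ≤ M * ‖det2 ℓ r r'‖)
    (e1 : 1 / 20 ≤ ‖e‖) (e2 : ‖e‖ ≤ 20)
    (ho : (xv ℓ d).1 * conj (xv ℓ e).1 + (xv ℓ d).2 * conj (xv ℓ e).2 = 0)
    (hg : ‖dotR r ((τ : ℂ) • d - κ • e)‖ + ‖dotR r' ((τ : ℂ) • d' - conj κ • e)‖ ≤ M * τ ^ 2 * S)
    (b1 : bcd ℓ d d' ≤ τ ^ 2 * S) (b2 : bcd ℓ e e ≤ τ ^ 2)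
    (b3 : ‖dotR r0 e‖ + ‖dotR r0' e‖ ≤ τ ^ 2) : S = 0 := by
  have hd := norm_nonneg d
  have hd' := norm_nonneg d'
  have hκ := norm_nonneg κ
  have hS0 : 0 ≤ S := by linarith
  have hM1 : 1 ≤ M ^ 6 := one_le_pow₀ hM
  have h1 : τ ≤ 1 := by nlinarith
  have hk := cnear_kap_bd hM hτ h1 hl (S := S) (by linarith) n1 n2 hdet e1 ho hg b1 b2
  have g1 := norm_nonneg (dotR r ((τ : ℂ) • d - κ • e))
  have g2 := norm_nonneg (dotR r' ((τ : ℂ) • d' - conj κ • e))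
  have g3 := norm_nonneg (dotR r0 e)
  have g4 := norm_nonneg (dotR r0' e)
  have hA := cnear_dot_bd hM hτ h1 (S := S) (d := d) (by linarith) l1 e2 hk (by linarith)
    (by linarith)
  have hB := cnear_dot_bd hM hτ h1 (S := S) (d := d') (κ := conj κ) (by linarith) l2 e2
    (by rwa [Complex.norm_conj]) (by linarith) (by linarith)
  have hy : 1 / 80 ≤ ‖xv ℓ e‖ := by linarith [cnear_le_xv hl e]
  have hx : ‖xv ℓ d‖ ≤ 4 * S := by linarith [cnear_xv_le hl d]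
  have p1 : τ ^ 2 ≤ M * τ ^ 2 := le_mul_of_one_le_left (by positivity) hM
  have p2 : M * τ ^ 2 * S ≤ M ^ 4 * τ * S := by
    have : M ≤ M ^ 4 := le_self_pow₀ hM (by norm_num)
    have : τ ^ 2 ≤ τ := by nlinarith
    gcongr
  have bn := cnear_bcd_nonneg ℓ
  have rA1 := cnear_row_bd (A := rA ℓ r0) (T := 103000000 * M ^ 4 * τ * S) (t := M * τ ^ 2) ho hy hx
    (by rwa [cnear_dotA]) (by rw [cnear_dotA]; linarith)
  have rB1 := cnear_row_bd (A := rB ℓ r0') (T := 104000000 * M ^ 4 * τ * S) (t := 5 * M * τ ^ 2)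
    ho hy hx
    (by
      have := cnear_dotB hl r0' d d'
      have := mul_le_mul n4 b1 (bn _ _) (by linarith)
      have : 0 ≤ M * τ ^ 2 * S := by positivity
      linarith)
    (by
      have := cnear_dotB hl r0' e e
      have := mul_le_mul n4 b2 (bn _ _) (by linarith)
      linarith)
  have hd0 := cnear_det0 hM hl n3 n4 e1 b2 b3
  have hd1 := cnear_det_sub hl r r' r0 r0' l1 l2
  have q3 := cnear_real hM hτ hS0 (norm_nonneg _) hx hdet hd0 hd1 rA1 rB1 p2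
  exact cnear_fin hM hτ hs hS0 hS q3 (cnear_le_xv hl d) (cnear_le_xv hl d') (cnear_xv_prime ℓ d d')
    b1 hk

end Vale.Agent.P139
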