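import Vale.Agent.P139.C.LA

/-! P139 task C/Near: the finite dimensional part. -/

noncomputable section

open MeasureTheory Filter Topology Set Complex
open scoped ComplexConjugate

namespace Vale.Agent.P139

/-- The reduced datum `(y, p - ℓ y)`. -/
def xv (ℓ : ℝ) (u : ℂ × ℂ) : ℂ × ℂ := (u.1, u.2 - ℓ * u.1)

/-- First row of the matrix of the limit problem. -/
def rA (ℓ : ℝ) (r : ℂ × ℂ) : ℂ × ℂ := (r.1 + ℓ * r.2, r.2)

/-- Second row of the matrix of the limit problem. -/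
def rB (ℓ : ℝ) (r : ℂ × ℂ) : ℂ × ℂ := (-conj (r.1 + ℓ * r.2), conj r.2)

theorem cnear_comb {ℓ : ℝ} (hl : ℓ ∈ Icc (0 : ℝ) 3) {s : ℂ} (hs : ‖s‖ = 1) (u : ℂ × ℂ) :
    ‖u.1 + s * (ℓ * u.2)‖ ≤ 4 * ‖u‖ ∧ ‖u.2 + s * (ℓ * u.1)‖ ≤ 4 * ‖u‖ := by
  have h1 := norm_fst_le u
  have h2 := norm_snd_le u
  have hn : ‖(ℓ : ℂ)‖ = ℓ := by rw [Complex.norm_real, Real.norm_of_nonneg hl.1]
  constructor
  · refine (norm_add_le _ _).trans ?_
    rw [norm_mul, norm_mul, hs, hn]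
    nlinarith [hl.1, hl.2, norm_nonneg u.2, norm_nonneg u]
  · refine (norm_add_le _ _).trans ?_
    rw [norm_mul, norm_mul, hs, hn]
    nlinarith [hl.1, hl.2, norm_nonneg u.1, norm_nonneg u]

theorem cnear_xv_le {ℓ : ℝ} (hl : ℓ ∈ Icc (0 : ℝ) 3) (u : ℂ × ℂ) : ‖xv ℓ u‖ ≤ 4 * ‖u‖ := by
  have h := (cnear_comb hl (s := -1) (by simp) u).2
  have h1 := norm_fst_le u
  rw [Prod.norm_def, max_le_iff]
  refine ⟨by simp only [xv]; linarith [norm_nonneg u], ?_⟩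
  have e : (xv ℓ u).2 = u.2 + -1 * (ℓ * u.1) := by simp only [xv]; ring
  rwa [e]

theorem cnear_le_xv {ℓ : ℝ} (hl : ℓ ∈ Icc (0 : ℝ) 3) (u : ℂ × ℂ) : ‖u‖ ≤ 4 * ‖xv ℓ u‖ := by
  have h := (cnear_comb hl (s := 1) (by simp) (xv ℓ u)).2
  have h1 := norm_fst_le (xv ℓ u)
  rw [Prod.norm_def u, max_le_iff]
  refine ⟨by simp only [xv] at h1 ⊢; linarith [norm_nonneg (xv ℓ u), norm_nonneg u.1], ?_⟩
  have e : (xv ℓ u).2 + 1 * (ℓ * (xv ℓ u).1) = u.2 := by simp only [xv]; ring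
  rwa [e] at h

theorem cnear_rA_le {ℓ : ℝ} (hl : ℓ ∈ Icc (0 : ℝ) 3) (r : ℂ × ℂ) :
    ‖rA ℓ r‖ ≤ 4 * ‖r‖ ∧ ‖rB ℓ r‖ ≤ 4 * ‖r‖ := by
  have h := (cnear_comb hl (s := 1) (by simp) r).1
  have h2 := norm_snd_le r
  rw [one_mul] at h
  constructor
  · rw [Prod.norm_def, max_le_iff]
    exact ⟨h, by simp only [rA]; linarith [norm_nonneg r]⟩
  · rw [Prod.norm_def, max_le_iff]
    refine ⟨by simpa only [rB, norm_neg, Complex.norm_conj] using h, ?_⟩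
    simp only [rB, Complex.norm_conj]
    linarith [norm_nonneg r]

theorem cnear_dot_le (r d : ℂ × ℂ) : ‖dotR r d‖ ≤ 2 * ‖r‖ * ‖d‖ := by
  refine (norm_add_le _ _).trans ?_
  rw [norm_mul, norm_mul]
  have h1 := mul_le_mul (norm_fst_le r) (norm_fst_le d) (norm_nonneg _) (norm_nonneg _)
  have h2 := mul_le_mul (norm_snd_le r) (norm_snd_le d) (norm_nonneg _) (norm_nonneg _)
  linarith

theorem cnear_dot_sub (r r0 d : ℂ × ℂ) : ‖dotR r d‖ ≤ ‖dotR r0 d‖ + 2 * ‖r - r0‖ * ‖d‖ := by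
  have h : dotR r d = dotR r0 d + dotR (r - r0) d := by simp only [dotR, Prod.fst_sub, Prod.snd_sub]; ring
  rw [h]
  exact (norm_add_le _ _).trans (by linarith [cnear_dot_le (r - r0) d])

theorem cnear_dotA (ℓ : ℝ) (r d : ℂ × ℂ) : dotR (rA ℓ r) (xv ℓ d) = dotR r d := by
  simp only [dotR, rA, xv]; ring

theorem cnear_dotB {ℓ : ℝ} (hl : ℓ ∈ Icc (0 : ℝ) 3) (r d d' : ℂ × ℂ) :
    ‖dotR (rB ℓ r) (xv ℓ d)‖ ≤ ‖dotR r d'‖ + 4 * ‖r‖ * bcd ℓ d d' := by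
  have h : dotR (rB ℓ r) (xv ℓ d) = conj (dotR r d') + ((rB ℓ r).1 * (d.1 + conj d'.1) +
      (rB ℓ r).2 * (d.2 - ℓ * d.1 - conj (d'.2 - ℓ * d'.1))) := by
    simp only [dotR, rB, xv, map_add, map_mul, map_sub, conj_ofReal]; ring
  rw [h]
  refine (norm_add_le _ _).trans ?_
  rw [Complex.norm_conj]
  refine add_le_add_right ((norm_add_le _ _).trans ?_) _
  rw [norm_mul, norm_mul, bcd, mul_add]
  have hB := (cnear_rA_le hl r).2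
  exact add_le_add (mul_le_mul_of_nonneg_right ((norm_fst_le _).trans hB) (norm_nonneg _))
    (mul_le_mul_of_nonneg_right ((norm_snd_le _).trans hB) (norm_nonneg _))

theorem cnear_xv_prime (ℓ : ℝ) (d d' : ℂ × ℂ) : ‖xv ℓ d'‖ ≤ ‖xv ℓ d‖ + bcd ℓ d d' := by
  have h1 := norm_fst_le (xv ℓ d)
  have h2 := norm_snd_le (xv ℓ d)
  simp only [xv] at h1 h2
  rw [Prod.norm_def (xv ℓ d'), max_le_iff, bcd]
  simp only [xv]
  constructor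
  · have h : ‖d'.1‖ ≤ ‖d.1 + conj d'.1‖ + ‖d.1‖ := by
      have h := norm_sub_le (d.1 + conj d'.1) d.1
      rwa [add_sub_cancel_left, Complex.norm_conj] at h
    linarith [norm_nonneg (d.2 - ℓ * d.1 - conj (d'.2 - ℓ * d'.1))]
  · have h : ‖d'.2 - ℓ * d'.1‖ ≤ ‖d.2 - ℓ * d.1‖ + ‖d.2 - ℓ * d.1 - conj (d'.2 - ℓ * d'.1)‖ := by
      have h := norm_sub_le (d.2 - ℓ * d.1) (d.2 - ℓ * d.1 - conj (d'.2 - ℓ * d'.1))
      rwa [sub_sub_cancel, Complex.norm_conj] at h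
    linarith [norm_nonneg (d.1 + conj d'.1)]

theorem cnear_bcd_comb (ℓ τ : ℝ) (hτ : 0 ≤ τ) (κ : ℂ) (d d' e : ℂ × ℂ) :
    bcd ℓ ((τ : ℂ) • d - κ • e) ((τ : ℂ) • d' - conj κ • e) ≤
      τ * bcd ℓ d d' + ‖κ‖ * bcd ℓ e e := by
  have hn : ‖(τ : ℂ)‖ = τ := by rw [Complex.norm_real, Real.norm_of_nonneg hτ]
  have h1 : ((τ : ℂ) • d - κ • e).1 + conj ((τ : ℂ) • d' - conj κ • e).1 =
      τ * (d.1 + conj d'.1) - κ * (e.1 + conj e.1) := by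
    simp only [Prod.fst_sub, Prod.smul_fst, smul_eq_mul, map_sub, map_mul, conj_ofReal, conj_conj]
    ring
  have h2 : ((τ : ℂ) • d - κ • e).2 - ℓ * ((τ : ℂ) • d - κ • e).1 -
      conj (((τ : ℂ) • d' - conj κ • e).2 - ℓ * ((τ : ℂ) • d' - conj κ • e).1) =
      τ * (d.2 - ℓ * d.1 - conj (d'.2 - ℓ * d'.1)) -
        κ * (e.2 - ℓ * e.1 - conj (e.2 - ℓ * e.1)) := by
    simp only [Prod.fst_sub, Prod.snd_sub, Prod.smul_fst, Prod.smul_snd, smul_eq_mul, map_sub,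
      map_mul, conj_ofReal, conj_conj]
    ring
  rw [bcd, h1, h2, bcd, bcd]
  have h3 := norm_sub_le ((τ : ℂ) * (d.1 + conj d'.1)) (κ * (e.1 + conj e.1))
  have h4 := norm_sub_le ((τ : ℂ) * (d.2 - ℓ * d.1 - conj (d'.2 - ℓ * d'.1)))
    (κ * (e.2 - ℓ * e.1 - conj (e.2 - ℓ * e.1)))
  rw [norm_mul, norm_mul, hn] at h3 h4
  linarith

theorem cnear_kappa {x y : ℂ × ℂ} (h : x.1 * conj y.1 + x.2 * conj y.2 = 0) (t κ : ℂ) :
    ‖κ‖ * ‖y‖ ≤ 2 * ‖t • x - κ • y‖ := by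
  rcases (norm_nonneg y).eq_or_lt with h0 | h0
  · rw [← h0, mul_zero]; positivity
  have h1 : dotR (t • x - κ • y) (conj y.1, conj y.2) = -κ * ((‖y.1‖ ^ 2 + ‖y.2‖ ^ 2 : ℝ) : ℂ) := by
    simp only [dotR, Prod.fst_sub, Prod.snd_sub, Prod.smul_fst, Prod.smul_snd, smul_eq_mul]
    push_cast
    rw [← Complex.mul_conj', ← Complex.mul_conj']
    linear_combination t * h
  have h2 := cnear_dot_le (t • x - κ • y) (conj y.1, conj y.2)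
  have h3 : ‖((conj y.1, conj y.2) : ℂ × ℂ)‖ = ‖y‖ := by
    rw [Prod.norm_def, Prod.norm_def y]; simp only [Complex.norm_conj]
  rw [h1, h3, norm_mul, norm_neg, Complex.norm_real, Real.norm_of_nonneg (by positivity)] at h2
  have h4 : ‖y‖ ^ 2 ≤ ‖y.1‖ ^ 2 + ‖y.2‖ ^ 2 := by
    rw [Prod.norm_def y]
    rcases max_choice ‖y.1‖ ‖y.2‖ with h | h <;> rw [h] <;> nlinarith [sq_nonneg ‖y.1‖, sq_nonneg ‖y.2‖]
  have h5 : ‖κ‖ * ‖y‖ * ‖y‖ ≤ 2 * ‖t • x - κ • y‖ * ‖y‖ := by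
    nlinarith [mul_le_mul_of_nonneg_left h4 (norm_nonneg κ)]
  exact le_of_mul_le_mul_right h5 h0

theorem cnear_det_sub {ℓ : ℝ} (hl : ℓ ∈ Icc (0 : ℝ) 3) (r r' r0 r0' : ℂ × ℂ) {t : ℝ}
    (h : ‖r - r0‖ ≤ t) (h' : ‖r' - r0'‖ ≤ t) : ‖det2 ℓ r r'‖ ≤
      ‖det2 ℓ r0 r0'‖ + 8 * t * (‖rA ℓ r0‖ + ‖rB ℓ r0'‖) + 32 * t ^ 2 := by
  have ht : 0 ≤ t := (norm_nonneg _).trans h
  have key : ∀ A B : ℂ × ℂ, ‖A.1 * B.2 - A.2 * B.1‖ ≤ 2 * ‖A‖ * ‖B‖ := by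
    intro A B
    refine (norm_sub_le _ _).trans ?_
    rw [norm_mul, norm_mul]
    have h1 := mul_le_mul (norm_fst_le A) (norm_snd_le B) (norm_nonneg _) (norm_nonneg _)
    have h2 := mul_le_mul (norm_snd_le A) (norm_fst_le B) (norm_nonneg _) (norm_nonneg _)
    linarith
  have e : det2 ℓ r r' = det2 ℓ r0 r0' +
      ((rA ℓ r0).1 * (rB ℓ (r' - r0')).2 - (rA ℓ r0).2 * (rB ℓ (r' - r0')).1) +
      ((rA ℓ (r - r0)).1 * (rB ℓ r0').2 - (rA ℓ (r - r0)).2 * (rB ℓ r0').1) +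
      ((rA ℓ (r - r0)).1 * (rB ℓ (r' - r0')).2 - (rA ℓ (r - r0)).2 * (rB ℓ (r' - r0')).1) := by
    simp only [det2, rA, rB, Prod.fst_sub, Prod.snd_sub, map_add, map_mul, map_sub, conj_ofReal]
    ring
  have hA : ‖rA ℓ (r - r0)‖ ≤ 4 * t := (cnear_rA_le hl _).1.trans (by linarith)
  have hB : ‖rB ℓ (r' - r0')‖ ≤ 4 * t := (cnear_rA_le hl _).2.trans (by linarith)
  have k1 := key (rA ℓ r0) (rB ℓ (r' - r0'))
  have k2 := key (rA ℓ (r - r0)) (rB ℓ r0')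
  have k3 := key (rA ℓ (r - r0)) (rB ℓ (r' - r0'))
  have m1 := mul_le_mul_of_nonneg_left hB (norm_nonneg (rA ℓ r0))
  have m2 := mul_le_mul_of_nonneg_right hA (norm_nonneg (rB ℓ r0'))
  have m3 := mul_le_mul hA hB (norm_nonneg _) (by positivity)
  rw [e]
  refine (norm_add_le _ _).trans ((add_le_add_left ((norm_add_le _ _).trans
    (add_le_add_left (norm_add_le _ _) _)) _).trans ?_)
  nlinarith

end Vale.Agent.P139
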